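import Vale.Agent.P225.Disproof.Mix.Chain

/-!
# P225: exact reversal of the flags

If every loop of the passes `(1 .. m-1), (1 .. m-2), ..., (1)` makes the low plane before it meet
the high plane after it, the flag at the start consists of the top slots at the end.
-/

namespace Vale.Agent.P225.Disproof.Mix

open Module

noncomputable section

variable {E : Type*} [NormedAddCommGroup E] [InnerProductSpace ℝ E] [FiniteDimensional ℝ E]

/-- The number of loops of the passes on `m` slots. -/
def loops : ℕ → ℕ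
  | 0 => 0
  | m + 1 => m + loops m

/-- The gaps of the loops of the passes on `m` slots above `lo`. -/
def passLoop (lo : ℕ) : ℕ → ℕ → ℕ
  | 0, _ => 0
  | m + 1, i => if i < m then lo + 1 + i else passLoop lo m (i - m)

theorem passLoop_mem (lo : ℕ) : ∀ {m i : ℕ}, i < loops m →
    lo < passLoop lo m i ∧ passLoop lo m i < lo + m := by
  intro m
  induction m with
  | zero => intro i hi; simp [loops] at hi
  | succ m ih =>
    intro i hi
    simp only [loops] at hi
    simp only [passLoop]
    split_ifs with h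
    · omega
    · have := ih (i := i - m) (by omega)
      omega

/-- Nested complementary flags along the checkpoints, exchanged exactly at the loops. -/
structure FlagData (W H : ℕ → ℕ → Submodule ℝ E) (jf : ℕ → ℕ) (lo M K : ℕ) : Prop where
  hlo : lo ≤ M
  hM : finrank ℝ E = M
  dimW : ∀ k ≤ K, ∀ l, lo ≤ l → l ≤ M → finrank ℝ (W k l) = l
  dimH : ∀ k ≤ K, ∀ l, lo ≤ l → l ≤ M → finrank ℝ (H k l) + l = M
  disj : ∀ k ≤ K, ∀ l, lo ≤ l → l ≤ M → W k l ⊓ H k l = ⊥
  monoW : ∀ k ≤ K, ∀ l, lo ≤ l → l < M → W k l ≤ W k (l + 1)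
  antiH : ∀ k ≤ K, ∀ l, lo ≤ l → l < M → H k (l + 1) ≤ H k l
  keepW : ∀ k < K, ∀ l, lo ≤ l → l ≤ M → l ≠ jf k → W (k + 1) l = W k l
  keepH : ∀ k < K, ∀ l, lo ≤ l → l ≤ M → l ≠ jf k → H k l = H (k + 1) l
  jf_mem : ∀ k < K, lo < jf k ∧ jf k < M ∨ M < jf k
  meet : ∀ k < K, jf k < M → W k (jf k) ⊓ H (k + 1) (jf k) ≠ ⊥

/-- The slot line. -/
def slot (W H : ℕ → ℕ → Submodule ℝ E) (k l : ℕ) : Submodule ℝ E := W k l ⊓ H k (l - 1)

/-- The bottom plane and a set of slots. -/
def slotSpan (W H : ℕ → ℕ → Submodule ℝ E) (lo k : ℕ) (S : Finset ℕ) : Submodule ℝ E :=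
  W k lo ⊔ S.sup (slot W H k)

/-- The effect of the loop at `j` on a set of slots. -/
def stepSet (j : ℕ) (S : Finset ℕ) : Finset ℕ :=
  if j ∈ S ∧ j + 1 ∉ S then insert (j + 1) (S.erase j) else S

namespace FlagData

variable {W H : ℕ → ℕ → Submodule ℝ E} {jf : ℕ → ℕ} {lo M K : ℕ} (h : FlagData W H jf lo M K)
include h

theorem slot_inf {k l : ℕ} (hk : k ≤ K) (h1 : lo < l) (h2 : l ≤ M) :
    slot W H k l ⊓ W k (l - 1) = ⊥ := by
  refine le_bot_iff.1 ((le_inf inf_le_right (inf_le_left.trans inf_le_right)).trans ?_)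
  exact le_of_eq (h.disj k hk (l - 1) (by omega) (by omega))

theorem finrank_slot {k l : ℕ} (hk : k ≤ K) (h1 : lo < l) (h2 : l ≤ M) :
    finrank ℝ (slot W H k l) = 1 ∧ W k l = W k (l - 1) ⊔ slot W H k l := by
  have e1 := Submodule.finrank_sup_add_finrank_inf_eq (W k l) (H k (l - 1))
  have e2 := Submodule.finrank_le (W k l ⊔ H k (l - 1))
  have e3 := Submodule.finrank_sup_add_finrank_inf_eq (slot W H k l) (W k (l - 1))
  rw [h.slot_inf hk h1 h2, finrank_bot] at e3
  have hle : slot W H k l ⊔ W k (l - 1) ≤ W k l :=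
    sup_le inf_le_left (by
      have := h.monoW k hk (l - 1) (by omega) (by omega)
      rwa [show l - 1 + 1 = l by omega] at this)
  have e4 := Submodule.finrank_mono hle
  have e5 := h.dimW k hk l h1.le h2
  have e6 := h.dimW k hk (l - 1) (by omega) (by omega)
  have e7 := h.dimH k hk (l - 1) (by omega) (by omega)
  rw [h.hM] at e2
  have hs : finrank ℝ (slot W H k l) = 1 := by
    change finrank ℝ ↥(W k l ⊓ H k (l - 1)) = 1
    change finrank ℝ ↥(slot W H k l ⊔ W k (l - 1)) + 0 =
      finrank ℝ ↥(W k l ⊓ H k (l - 1)) + _ at e3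
    omega
  refine ⟨hs, ?_⟩
  rw [sup_comm]
  exact (Submodule.eq_of_le_of_finrank_le hle (by omega)).symm

theorem W_eq_span {k l : ℕ} (hk : k ≤ K) (h1 : lo ≤ l) (h2 : l ≤ M) :
    W k l = slotSpan W H lo k (Finset.Ioc lo l) := by
  induction l, h1 using Nat.le_induction with
  | base => simp [slotSpan]
  | succ l h1 ih =>
    have hI : Finset.Ioc lo (l + 1) = insert (l + 1) (Finset.Ioc lo l) := by
      ext x
      simp only [Finset.mem_Ioc, Finset.mem_insert]
      omega
    rw [(h.finrank_slot hk (by omega) h2).2, Nat.add_sub_cancel, ih (by omega), hI, slotSpan,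
      slotSpan, Finset.sup_insert]
    ac_rfl

theorem H_eq_sup {k l : ℕ} (hk : k ≤ K) (h1 : lo ≤ l) (h2 : l ≤ M) :
    H k l = (Finset.Ioc l M).sup (slot W H k) := by
  induction d : M - l generalizing l with
  | zero =>
    obtain rfl : l = M := by omega
    have := h.dimH k hk l h1 le_rfl
    simp [Submodule.finrank_eq_zero.1 (show finrank ℝ (H k l) = 0 by omega)]
  | succ d ih =>
    have hI : Finset.Ioc l M = insert (l + 1) (Finset.Ioc (l + 1) M) := by
      ext x
      simp only [Finset.mem_Ioc, Finset.mem_insert]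
      omega
    have ih' := ih (l := l + 1) (by omega) (by omega) (by omega)
    rw [hI, Finset.sup_insert, ← ih']
    obtain ⟨hs, -⟩ := h.finrank_slot hk (l := l + 1) (by omega) (by omega)
    have hle : slot W H k (l + 1) ⊔ H k (l + 1) ≤ H k l :=
      sup_le inf_le_right (h.antiH k hk l h1 (by omega))
    refine (Submodule.eq_of_le_of_finrank_le hle ?_).symm
    have e := Submodule.finrank_sup_add_finrank_inf_eq (slot W H k (l + 1)) (H k (l + 1))
    have hbot : slot W H k (l + 1) ⊓ H k (l + 1) = ⊥ := le_bot_iff.1 <|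
      (inf_le_inf_right _ inf_le_left).trans (le_of_eq (h.disj k hk _ (by omega) (by omega)))
    rw [hbot, finrank_bot] at e
    have := h.dimH k hk l h1 h2
    have := h.dimH k hk (l + 1) (by omega) (by omega)
    omega

theorem W_lo {k : ℕ} (hk : k ≤ K) : W k lo = W 0 lo := by
  induction k with
  | zero => rfl
  | succ k ih =>
    have := h.jf_mem k hk
    have := h.hlo
    rw [h.keepW k hk lo le_rfl h.hlo (by omega), ih (by omega)]

theorem slot_keep {k l : ℕ} (hk : k < K) (h1 : lo < l) (h2 : l ≤ M) (hj : l ≠ jf k)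
    (hj1 : l ≠ jf k + 1) : slot W H k l = slot W H (k + 1) l := by
  rw [slot, slot, h.keepW k hk l h1.le h2 hj, h.keepH k hk (l - 1) (by omega) (by omega) (by omega)]

theorem slot_pair {k j : ℕ} (hk : k ≤ K) (h1 : lo < j) (h2 : j < M) :
    slot W H k j ⊔ slot W H k (j + 1) = W k (j + 1) ⊓ H k (j - 1) := by
  have hW : W k j ≤ W k (j + 1) := h.monoW k hk j h1.le h2
  have hW' : W k (j - 1) ≤ W k j := by
    have := h.monoW k hk (j - 1) (by omega) (by omega)
    rwa [show j - 1 + 1 = j by omega] at this
  have hH : H k j ≤ H k (j - 1) := by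
    have := h.antiH k hk (j - 1) (by omega) (by omega)
    rwa [show j - 1 + 1 = j by omega] at this
  have hle : slot W H k j ⊔ slot W H k (j + 1) ≤ W k (j + 1) ⊓ H k (j - 1) :=
    sup_le (inf_le_inf_right _ hW) (inf_le_inf_left _ hH)
  refine Submodule.eq_of_le_of_finrank_le hle ?_
  have hbot : slot W H k j ⊓ slot W H k (j + 1) = ⊥ := le_bot_iff.1 <| by
    rw [← h.slot_inf hk (l := j + 1) (by omega) (by omega), Nat.add_sub_cancel]
    exact le_inf inf_le_right (inf_le_left.trans inf_le_left)
  have e1 := Submodule.finrank_sup_add_finrank_inf_eq (slot W H k j) (slot W H k (j + 1))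
  rw [hbot, finrank_bot, (h.finrank_slot hk h1 h2.le).1,
    (h.finrank_slot hk (by omega : lo < j + 1) h2).1] at e1
  have e2 := Submodule.finrank_sup_add_finrank_inf_eq (W k (j + 1) ⊓ H k (j - 1)) (W k (j - 1))
  have hbot2 : W k (j + 1) ⊓ H k (j - 1) ⊓ W k (j - 1) = ⊥ := le_bot_iff.1 <| by
    rw [← h.disj k hk (j - 1) (by omega) (by omega)]
    exact le_inf inf_le_right (inf_le_left.trans inf_le_right)
  rw [hbot2, finrank_bot] at e2
  have e3 := Submodule.finrank_mono
    (sup_le inf_le_left (hW'.trans hW) : W k (j + 1) ⊓ H k (j - 1) ⊔ W k (j - 1) ≤ W k (j + 1))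
  have := h.dimW k hk (j + 1) (by omega) (by omega)
  have := h.dimW k hk (j - 1) (by omega) (by omega)
  omega

theorem slot_swap {k : ℕ} (hk : k < K) (hj : jf k < M) :
    slot W H k (jf k) = slot W H (k + 1) (jf k + 1) := by
  obtain ⟨h1, -⟩ := (h.jf_mem k hk).resolve_right (by omega)
  have hH : H (k + 1) (jf k) ≤ H k (jf k - 1) := by
    rw [h.keepH k hk (jf k - 1) (by omega) (by omega) (by omega)]
    have := h.antiH (k + 1) hk (jf k - 1) (by omega) (by omega)
    rwa [show jf k - 1 + 1 = jf k by omega] at this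
  have hW : W k (jf k) ≤ W (k + 1) (jf k + 1) := by
    rw [h.keepW k hk (jf k + 1) (by omega) (by omega) (by omega)]
    exact h.monoW k hk.le _ h1.le hj
  set Z := W k (jf k) ⊓ H (k + 1) (jf k)
  have hZ : 1 ≤ finrank ℝ Z := Submodule.one_le_finrank_iff.2 (h.meet k hk hj)
  have a1 : Z ≤ slot W H k (jf k) := inf_le_inf_left _ hH
  have a2 : Z ≤ slot W H (k + 1) (jf k + 1) := inf_le_inf hW (le_of_eq (by simp))
  rw [← Submodule.eq_of_le_of_finrank_le a1 (by rw [(h.finrank_slot hk.le h1 hj.le).1]; exact hZ),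
    ← Submodule.eq_of_le_of_finrank_le a2 (by
      rw [(h.finrank_slot (k := k + 1) hk (by omega : lo < jf k + 1) hj).1]; exact hZ)]

theorem span_step {k : ℕ} (hk : k < K) {S : Finset ℕ} (hS : S ⊆ Finset.Ioc lo M)
    (hS' : jf k + 1 ∈ S → jf k ∈ S) :
    slotSpan W H lo k S = slotSpan W H lo (k + 1) (stepSet (jf k) S) := by
  have hmem : ∀ l ∈ S, lo < l ∧ l ≤ M := fun l hl => Finset.mem_Ioc.1 (hS hl)
  have hrest : ∀ T ⊆ S, (∀ l ∈ T, l ≠ jf k ∧ l ≠ jf k + 1) →
      T.sup (slot W H k) = T.sup (slot W H (k + 1)) := fun T hT hT' =>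
    Finset.sup_congr rfl fun l hl =>
      h.slot_keep hk (hmem l (hT hl)).1 (hmem l (hT hl)).2 (hT' l hl).1 (hT' l hl).2
  have hbase : W k lo = W (k + 1) lo := by rw [h.W_lo hk.le, h.W_lo (k := k + 1) hk]
  by_cases h0 : jf k ∈ S
  · obtain ⟨h1, h2⟩ := hmem _ h0
    have hj : jf k < M := ((h.jf_mem k hk).resolve_right (by omega)).2
    by_cases h3 : jf k + 1 ∈ S
    · have hdec : S = insert (jf k) (insert (jf k + 1) ((S.erase (jf k)).erase (jf k + 1))) := by
        rw [Finset.insert_erase (Finset.mem_erase.2 ⟨by omega, h3⟩), Finset.insert_erase h0]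
      rw [stepSet, if_neg (fun hh => hh.2 h3), slotSpan, slotSpan, hbase, hdec]
      simp only [Finset.sup_insert, ← sup_assoc]
      have hp : slot W H k (jf k) ⊔ slot W H k (jf k + 1) =
          slot W H (k + 1) (jf k) ⊔ slot W H (k + 1) (jf k + 1) := by
        rw [h.slot_pair hk.le h1 hj, h.slot_pair (k := k + 1) hk h1 hj,
          h.keepW k hk (jf k + 1) (by omega) (by omega) (by omega),
          h.keepH k hk (jf k - 1) (by omega) (by omega) (by omega)]
      have hr := hrest ((S.erase (jf k)).erase (jf k + 1))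
        ((Finset.erase_subset _ _).trans (Finset.erase_subset _ _)) fun l hl => by
          simp only [Finset.mem_erase] at hl
          exact ⟨hl.2.1, hl.1⟩
      rw [hr, sup_assoc (W (k + 1) lo), hp, ← sup_assoc]
    · rw [stepSet, if_pos ⟨h0, h3⟩, slotSpan, slotSpan, hbase]
      conv_lhs => rw [← Finset.insert_erase h0]
      rw [Finset.sup_insert, Finset.sup_insert, h.slot_swap hk hj,
        hrest (S.erase (jf k)) (Finset.erase_subset _ _) fun l hl => by
          simp only [Finset.mem_erase] at hl
          exact ⟨hl.1, fun he => h3 (he ▸ hl.2)⟩]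
  · rw [stepSet, if_neg (fun hh => h0 hh.1), slotSpan, slotSpan, hbase,
      hrest S subset_rfl fun l hl => ⟨fun he => h0 (he ▸ hl), fun he => h0 (hS' (he ▸ hl))⟩]

theorem passes : ∀ m k0, lo + m ≤ M → k0 + loops m ≤ K →
    (∀ i < loops m, jf (k0 + i) = passLoop lo m i) →
    (∀ q ≤ m, slotSpan W H lo k0 (Finset.Ioc lo (lo + q)) =
        slotSpan W H lo (k0 + loops m) (Finset.Ioc (lo + m - q) (lo + m))) ∧
      ∀ l, lo + m < l → l ≤ M → slot W H k0 l = slot W H (k0 + loops m) l := by
  intro m
  induction m with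
  | zero =>
    intro k0 _ _ _
    refine ⟨fun q hq => ?_, fun l _ _ => rfl⟩
    obtain rfl : q = 0 := by omega
    rfl
  | succ m ih =>
    intro k0 hm hK hjf
    simp only [loops] at hK hjf ⊢
    have hone : ∀ i < m, jf (k0 + i) = lo + 1 + i := fun i hi => by
      rw [hjf i (by omega), passLoop, if_pos hi]
    obtain ⟨ih1, ih2⟩ := ih (k0 + m) (by omega) (by omega) fun i hi => by
      rw [add_assoc, hjf (m + i) (by omega), passLoop, if_neg (by omega), Nat.add_sub_cancel_left]
    rw [← add_assoc]
    refine ⟨fun q hq => ?_, fun l hl hlM => ?_⟩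
    · cases q with
      | zero =>
        simp [slotSpan, h.W_lo (show k0 ≤ K by omega), h.W_lo (show k0 + m + loops m ≤ K by omega)]
      | succ q =>
        have hpass : ∀ i ≤ m, slotSpan W H lo k0 (Finset.Ioc lo (lo + (q + 1))) =
            slotSpan W H lo (k0 + i) (insert (lo + max i q + 1) (Finset.Ioc lo (lo + q))) := by
          intro i
          induction i with
          | zero =>
            intro _
            congr 1
            ext x
            simp only [Finset.mem_Ioc, Finset.mem_insert]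
            omega
          | succ i ihi =>
            intro hi
            have hj := hone i (by omega)
            rw [ihi (by omega), h.span_step (by omega) ?_ ?_, add_assoc]
            · congr 1
              rw [stepSet, hj]
              ext x
              split_ifs with hc <;>
                simp only [Finset.mem_Ioc, Finset.mem_insert, Finset.mem_erase] at hc ⊢ <;> omega
            · intro x hx
              simp only [Finset.mem_Ioc, Finset.mem_insert] at hx ⊢
              omega
            · rw [hj]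
              simp only [Finset.mem_Ioc, Finset.mem_insert]
              omega
        rw [hpass m le_rfl, show max m q = m by omega, slotSpan, Finset.sup_insert,
          sup_left_comm, ← slotSpan, ih1 q (by omega), ih2 (lo + m + 1) (by omega) hm]
        have hI : Finset.Ioc (lo + (m + 1) - (q + 1)) (lo + (m + 1)) =
            insert (lo + m + 1) (Finset.Ioc (lo + m - q) (lo + m)) := by
          ext x
          simp only [Finset.mem_Ioc, Finset.mem_insert]
          omega
        rw [hI, slotSpan, slotSpan, Finset.sup_insert, sup_left_comm]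
    · have hpre : ∀ i ≤ m, slot W H k0 l = slot W H (k0 + i) l := by
        intro i
        induction i with
        | zero => exact fun _ => rfl
        | succ i ihi =>
          intro hi
          have hj := hone i (by omega)
          rw [ihi (by omega)]
          exact h.slot_keep (by omega) (by omega) hlM (by omega) (by omega)
      rw [hpre m le_rfl, ih2 l (by omega) hlM]

/-- The flag at the start is the bottom plane with the top slots at the end. -/
theorem reversal (m : ℕ) (hm : lo + m = M) (hK : loops m ≤ K)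
    (hjf : ∀ i < loops m, jf i = passLoop lo m i) (hnone : ∀ i, loops m ≤ i → i < K → M < jf i)
    {q : ℕ} (hq : q ≤ m) : W 0 (lo + q) = W 0 lo ⊔ H K (M - q) := by
  have h0 := (h.passes m 0 (by omega) (by omega) (fun i hi => by simpa using hjf i hi)).1 q hq
  rw [zero_add, ← h.W_eq_span (Nat.zero_le _) (by omega) (by omega), hm] at h0
  have hrest : ∀ i, loops m + i ≤ K →
      slotSpan W H lo (loops m) (Finset.Ioc (M - q) M) =
        slotSpan W H lo (loops m + i) (Finset.Ioc (M - q) M) := by
    intro i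
    induction i with
    | zero => exact fun _ => rfl
    | succ i ihi =>
      intro hi
      have hj := hnone (loops m + i) (by omega) (by omega)
      rw [ihi (by omega), h.span_step (by omega) (fun x hx => ?_) (fun hx => ?_), stepSet,
        if_neg fun hx => by have := (Finset.mem_Ioc.1 hx.1).2; omega]
      · rfl
      · simp only [Finset.mem_Ioc] at hx ⊢
        omega
      · have := (Finset.mem_Ioc.1 hx).2
        omega
  have h1 := hrest (K - loops m) (by omega)
  rw [Nat.add_sub_of_le hK] at h1
  rw [h0, h1, slotSpan, h.W_lo le_rfl, h.H_eq_sup le_rfl (by omega) (by omega)]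

end FlagData

/-- The flags of a chain all of whose equations vanish. -/
theorem IsChain.flagData {D : CData E} {lo M : ℕ} (h : IsChain D lo M)
    (hz : ∀ k < D.K, D.jf k < M → D.W k (D.jf k) ⊓ D.H (k + 1) (D.jf k) ≠ ⊥) :
    FlagData D.W D.H D.jf lo M D.K := by
  have hS : ∀ k ≤ D.K, _ := fun k hk => h.highState (D.K - k) k (by omega)
  refine ⟨h.hlo, h.hM, fun k hk l => h.finrank_W hk, fun k hk l h1 h2 => ?_,
    fun k hk l h1 h2 => ?_, fun k hk => (h.lowState k hk).2, fun k hk => (hS k hk).2,
    fun k hk l h1 h2 hne => (h.W_step hk (h.lowState k hk.le) h1 h2 hne).1,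
    fun k hk l h1 h2 hne => ?_, h.jf_mem, hz⟩
  · have h3 := LinearMap.finrank_range_add_finrank_ker (D.R k l : E →ₗ[ℝ] Co l)
    rw [LinearMap.range_eq_top.2 (Function.RightInverse.surjective ((hS k hk).1 l h1 h2).2),
      finrank_top, finrank_euclideanSpace_fin, h.hM] at h3
    change finrank ℝ (LinearMap.ker (D.R k l : E →ₗ[ℝ] Co l)) + l = M
    omega
  · refine (Submodule.eq_bot_iff _).2 fun x hx => ?_
    obtain ⟨⟨v, rfl⟩, hR⟩ := hx
    have h3 : D.R k l (D.J k l v) = v := ((hS k hk).1 l h1 h2).2 v
    change D.R k l (D.J k l v) = 0 at hR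
    rw [← h3, hR]
    exact map_zero _
  · ext x
    have hu : IsUnit (D.R (k + 1) l ∘L D.J k l) :=
      IsChain.isUnit_renorm ((h.lowState k hk.le).1 l h1 h2).2 fun x hx hx0 =>
        h.keepHigh k hk l h1 h2 hne x hx0 (((hS (k + 1) hk).1 l h1 h2).1 x hx hx0).le
    simp only [CData.H, LinearMap.mem_ker, ContinuousLinearMap.coe_coe, D.R_step hk,
      if_neg hne, ContinuousLinearMap.comp_apply]
    refine ⟨fun hx => ?_, fun hx => by rw [hx, map_zero]⟩
    rw [← apply_inv hu (D.R (k + 1) l x), hx, map_zero]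

end

end Vale.Agent.P225.Disproof.Mix
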