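import Vale.Agent.P225.Disproof.Mix.Timed
import Vale.Agent.P225.Disproof.Mix.Reversal

/-!
# P225: one half block

The loops of the passes followed by a rest `[te, t₁]`. Some parameters make the flag `F` at the
start equal to the bottom plane with the top slots at the end.
-/

namespace Vale.Agent.P225.Disproof

open Set Module
open scoped RealInnerProductSpace

noncomputable section

variable {E : Type*} [NormedAddCommGroup E] [InnerProductSpace ℝ E] [FiniteDimensional ℝ E]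
  {a b ε : ℝ}

/-- The outcome of a half block with rest `[te, t₁]`: low flag `W`, high flag `H`, reversal. -/
structure Half (S : DualSys E a b ε) (lev : ℕ → ℝ) (lo M : ℕ) (c T : ℝ) (t0 te t1 : ℝ)
    (F W H : ℕ → Submodule ℝ E) : Prop where
  W_lo : W lo = F lo
  W_dim : ∀ l, lo ≤ l → l ≤ M → finrank ℝ (W l) = l
  W_mono : ∀ l, lo ≤ l → l < M → W l ≤ W (l + 1)
  H_anti : ∀ l, lo ≤ l → l < M → H (l + 1) ≤ H l
  compl : ∀ l, lo ≤ l → l ≤ M → W l ⊔ H l = ⊤
  W_low : ∀ l, lo ≤ l → l ≤ M → ∀ τ ∈ Icc (te + T) t1, S.LowAt (lev l) c τ (W l)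
  W_end : ∀ l, lo ≤ l → l ≤ M → ∀ x ∈ W l, x ≠ 0 → S.cone (lev l) t1 x < 0
  H_end : ∀ l, lo ≤ l → l ≤ M → ∀ x ∈ H l, 0 ≤ S.cone (lev l) t1 x
  H_high : ∀ l, lo ≤ l → l ≤ M → ∀ τ ∈ Icc te (t1 - T), S.HighAt (lev l) c τ (H l)
  H_start : ∀ x ∈ H lo, 0 ≤ S.cone (lev lo) t0 x
  reversal : ∀ q, lo + q ≤ M → F (lo + q) = F lo ⊔ H (M - q)

/-- The gaps of a half block: the passes on `m` slots, then a step without loop. -/
def halfLoop (lo M m k : ℕ) : ℕ :=
  if k < Mix.loops m then Mix.passLoop lo m k else M + 1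

/-- The rest of a half block. -/
structure RestHyp (S : DualSys E a b ε) (lev : ℕ → ℝ) (lo M : ℕ) (c T te t1 : ℝ) : Prop where
  opens : ∀ l, lo ≤ l → l < M → S.Open (fun _ => lev l) c T l te t1
  top : ∀ τ ∈ Icc te t1, ∀ x : E, S.cone (lev M) τ x ≤ -c * S.nrm τ x

/-- Some parameters reverse the flag exactly. -/
theorem exists_half {lo M m : ℕ} (hm : lo + m = M) {S : (Fin (Mix.loops m) → ℝ) → DualSys E a b ε}
    {lev : ℕ → ℝ} {proj : (Fin (Mix.loops m) → ℝ) → ∀ _k l : ℕ, E →L[ℝ] Mix.Co l} {t : ℕ → ℝ}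
    {c T L B d : ℝ}
    (hTim : ∀ s ∈ Icc (0 : Fin (Mix.loops m) → ℝ) 1,
      Timed (S s) lev (proj s) (halfLoop lo M m) t lo M (Mix.loops m + 1) c T L B d)
    (hrest : ∀ s ∈ Icc (0 : Fin (Mix.loops m) → ℝ) 1,
      RestHyp (S s) lev lo M c T (t (Mix.loops m)) (t (Mix.loops m + 1)))
    (hN : ∀ k ≤ Mix.loops m + 1, ContinuousOn (fun s => (S s).N (t k)) (Icc 0 1))
    (hEn : ∀ k ≤ Mix.loops m + 1, ContinuousOn (fun s => (S s).En (t k)) (Icc 0 1))
    (hproj : ∀ k ≤ Mix.loops m + 1, ∀ l, lo ≤ l → l ≤ M →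
      ContinuousOn (fun s => proj s k l) (Icc 0 1))
    {F : ℕ → Submodule ℝ E} (hFd : ∀ l, lo ≤ l → l ≤ M → finrank ℝ (F l) = l)
    (hFm : ∀ l, lo ≤ l → l < M → F l ≤ F (l + 1))
    (hFn : ∀ s ∈ Icc (0 : Fin (Mix.loops m) → ℝ) 1,
      ∀ l, lo ≤ l → l ≤ M → ∀ x ∈ F l, x ≠ 0 → (S s).cone (lev l) (t 0) x < 0)
    (σ : Fin (Mix.loops m) → ℝ)
    (hface : ∀ i : Fin (Mix.loops m), ∀ s ∈ Icc (0 : Fin (Mix.loops m) → ℝ) 1,
      (s i = 0 ∨ s i = 1) → ∀ x, x ≠ 0 →
      (S s).cone (lev (Mix.passLoop lo m i)) (t i) x ≤ 0 →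
      (S s).cone (lev (Mix.passLoop lo m i)) (t (i + 1)) x < 0)
    (hor : ∀ i : Fin (Mix.loops m), ∀ s ∈ Icc (0 : Fin (Mix.loops m) → ℝ) 1,
      (s i = 0 ∨ s i = 1) → ∀ J : Mix.Co (Mix.passLoop lo m i) →L[ℝ] E,
      (∀ v, proj s i (Mix.passLoop lo m i) (J v) = v) →
      (∀ v, v ≠ 0 → (S s).cone (lev (Mix.passLoop lo m i)) (t i) (J v) < 0) →
      0 < (if s i = 0 then -σ i else σ i) *
        (proj s (i + 1) (Mix.passLoop lo m i) ∘L J).det) :
    ∃ s ∈ Icc (0 : Fin (Mix.loops m) → ℝ) 1, ∃ W H : ℕ → Submodule ℝ E,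
      Half (S s) lev lo M c T (t 0) (t (Mix.loops m)) (t (Mix.loops m + 1)) F W H := by
  set K := Mix.loops m + 1 with hK
  set D := fun s => chainData (S s) lev (proj s) (halfLoop lo M m) t K F
  have hD : ∀ s ∈ Icc (0 : Fin (Mix.loops m) → ℝ) 1, Mix.IsChain (D s) lo M := fun s hs =>
    (hTim s hs).isChain hFd hFm (hFn s hs)
  have hcont : Mix.ContChain D lo M (Icc 0 1) K (halfLoop lo M m) :=
    ⟨fun _ => rfl, fun _ => rfl, hD, fun k hk l _ _ => (hEn k hk).sub ((hN k hk).const_smul (lev l)),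
      fun k hk l h1 h2 => hproj k hk l h1 h2, fun _ _ _ => continuousOn_const⟩
  have hjl : ∀ i : Fin (Mix.loops m), halfLoop lo M m i = Mix.passLoop lo m i := fun i =>
    if_pos i.isLt
  obtain ⟨s, hs, hz⟩ := Mix.exists_zero hcont (fun i : Fin (Mix.loops m) => (i : ℕ))
    (fun i => ⟨by omega, by
      rw [hjl]; have := Mix.passLoop_mem lo (m := m) i.isLt; omega⟩)
    (fun k hk hj => by
      refine ⟨⟨k, ?_⟩, rfl⟩
      by_contra hcon
      rw [halfLoop, if_neg hcon] at hj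
      omega) σ
    (fun i s hs hf => by
      simp only [hjl, D, chainData_qf]
      exact hface i s hs hf)
    (fun i s hs hf => by
      have h3 := hor i s hs hf
      rw [← hjl i] at h3
      simp only [D, chainData_qf]
      exact h3)
  have h := hD s hs
  have hfl := h.flagData hz
  have hrev : ∀ q ≤ m, (D s).W 0 (lo + q) = (D s).W 0 lo ⊔ (D s).H K (M - q) := fun q hq =>
    hfl.reversal m hm (Nat.le_succ _) (fun i hi => if_pos hi) (fun i hi _ => by
      change M < halfLoop lo M m i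
      rw [halfLoop, if_neg (by omega)]
      omega) hq
  have hlast : ∀ l, l ≤ M → (l : ℕ) ≠ halfLoop lo M m (Mix.loops m) := fun l hl => by
    rw [halfLoop, if_neg (lt_irrefl _)]
    omega
  have hW0 : ∀ l, lo ≤ l → l ≤ M → (D s).W 0 l = F l := fun l h1 h2 => by
    obtain ⟨h0, hex⟩ := h.normFrame_init h1 h2
    obtain ⟨-, s2, s3, -⟩ := Mix.normFrame_spec h0 hex
    ext x
    have hmem : (D s).C0 l x = 0 ↔ x ∈ F l := by
      simp only [D, chainData, sub_apply, ContinuousLinearMap.id_apply, sub_eq_zero]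
      exact eq_comm.trans Submodule.starProjection_eq_self_iff
    constructor
    · rintro ⟨v, rfl⟩
      refine (?_ : (D s).J 0 l v ∈ F l)
      have hv : (D s).C0 l ((D s).J 0 l v) = 0 := s2 v
      have hmem' : ∀ y, (D s).C0 l y = 0 → y ∈ F l := fun y hy => by
        simp only [D, chainData, sub_apply, ContinuousLinearMap.id_apply, sub_eq_zero] at hy
        exact Submodule.starProjection_eq_self_iff.1 hy.symm
      exact hmem' _ hv
    · exact fun hx => ⟨_, s3 x (hmem.2 hx)⟩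
  have hWK : ∀ l, lo ≤ l → l ≤ M → (D s).W K l = (D s).W (Mix.loops m) l := fun l h1 h2 =>
    hfl.keepW (Mix.loops m) (by change Mix.loops m < K; omega) l h1 h2 (hlast l h2)
  have hHK : ∀ l, lo ≤ l → l ≤ M → ∀ x ∈ (D s).H K l, x = 0 ∨
      0 < (S s).cone (lev l) (t K) x := fun l h1 h2 x hx => by
    rcases eq_or_ne x 0 with h0 | h0
    · exact Or.inl h0
    · refine Or.inr ?_
      rw [← chainData_qf (S s) lev (proj s) (halfLoop lo M m) t K F]
      exact ((h.highState 0 K (by simp [D, chainData])).1 l h1 h2).1 x hx h0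
  have hH0 : ∀ k ≤ K, (D s).H 0 lo = (D s).H k lo := by
    intro k
    induction k with
    | zero => exact fun _ => rfl
    | succ k ih =>
      intro hk
      rw [ih (by omega)]
      refine hfl.keepH k hk lo le_rfl h.hlo fun he => ?_
      have := hfl.jf_mem k hk
      have := h.hlo
      omega
  have te_le : t (Mix.loops m) ≤ t K := by
    have := (hTim s hs).t_le (k := Mix.loops m) (by omega)
    have := (hTim s hs).hT
    linarith
  have hcone0 : ∀ μ τ, (S s).cone μ τ 0 = 0 := fun μ τ => by simp [DualSys.cone]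
  refine ⟨s, hs, fun l => (D s).W K l, fun l => (D s).H K l, ?_, fun l h1 h2 => ?_,
    fun l h1 h2 => hfl.monoW K le_rfl l h1 h2, fun l h1 h2 => hfl.antiH K le_rfl l h1 h2,
    fun l h1 h2 => ?_, fun l h1 h2 τ hτ x hx => ?_, fun l h1 h2 x hx hx0 => ?_,
    fun l h1 h2 x hx => ?_, fun l h1 h2 τ hτ x hx => ?_, fun x hx => ?_, fun q hq => ?_⟩
  · exact (hfl.W_lo (k := K) le_rfl).trans (hW0 lo le_rfl h.hlo)
  · exact hfl.dimW K le_rfl l h1 h2
  · refine Submodule.eq_top_of_finrank_eq ?_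
    have e := Submodule.finrank_sup_add_finrank_inf_eq ((D s).W K l) ((D s).H K l)
    rw [hfl.disj K le_rfl l h1 h2, finrank_bot, hfl.dimW K le_rfl l h1 h2] at e
    have := hfl.dimH K le_rfl l h1 h2
    rw [h.hM]
    omega
  · rw [hWK l h1 h2] at hx
    rcases h2.eq_or_lt with rfl | h2
    · exact (hrest s hs).top τ ⟨by linarith [hτ.1, (hTim s hs).hT], hτ.2⟩ x
    · refine ((hrest s hs).opens l h1 h2).low_forward x (t (Mix.loops m)) ⟨le_rfl, te_le⟩ τ
        ⟨by linarith [hτ.1, (hTim s hs).hT], hτ.2⟩ ?_ |>.2 hτ.1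
      obtain ⟨v, rfl⟩ := hx
      rcases eq_or_ne v 0 with rfl | hv
      · simp [DualSys.cone]
      · have h3 := ((h.lowState (Mix.loops m) (by change Mix.loops m ≤ K; omega)).1 l h1 h2.le).2 v hv
        simp only [D, chainData_qf] at h3
        exact h3.le
  · obtain ⟨v, rfl⟩ := hx
    have hv : v ≠ 0 := fun h0 => hx0 (by rw [h0]; exact map_zero _)
    have h3 := ((h.lowState K le_rfl).1 l h1 h2).2 v hv
    simp only [D, chainData_qf] at h3
    exact h3
  · rcases hHK l h1 h2 x hx with rfl | hpos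
    · rw [hcone0]
    · exact hpos.le
  · rcases hHK l h1 h2 x hx with rfl | hpos
    · simp [DualSys.nrm_zero, hcone0]
    · rcases h2.eq_or_lt with rfl | h2
      · have := (hTim s hs).top_check K le_rfl x (fun h0 => by rw [h0, hcone0] at hpos; exact lt_irrefl _ hpos)
        linarith
      · exact (((hrest s hs).opens l h1 h2).high_backward x τ
          ⟨hτ.1, by linarith [hτ.2, (hTim s hs).hT]⟩ (t K)
          ⟨by linarith [hτ.2, (hTim s hs).hT], le_rfl⟩ hpos.le).2 (by linarith [hτ.2])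
  · change x ∈ (D s).H K lo at hx
    rw [← hH0 K le_rfl] at hx
    rcases eq_or_ne x 0 with rfl | h0
    · rw [hcone0]
    · have h3 := ((h.highState K 0 (by simp [D, chainData])).1 lo le_rfl h.hlo).1 x hx h0
      simp only [D, chainData_qf] at h3
      exact h3.le
  · rw [← hW0 (lo + q) (by omega) hq, ← hW0 lo le_rfl h.hlo]
    exact hrev q (by omega)

end

end Vale.Agent.P225.Disproof
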