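import Vale.Agent.P225.Disproof.Mix.Rates

/-!
# P225: the product over blocks along a flag

If on each block the orbit of `x ∈ F l` modulo `F (l - 1)` loses at most `exp (2 R Δ)`, then over
`n` blocks every orbit loses at most `exp (2 R t)` up to a factor polynomial in `n`.
-/

namespace Vale.Agent.P225.Disproof

open Set Module
open scoped RealInnerProductSpace

noncomputable section

variable {E : Type*} [NormedAddCommGroup E] [InnerProductSpace ℝ E] [FiniteDimensional ℝ E]

namespace DualSys

variable {a b ε : ℝ} {S : DualSys E a b ε}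

theorem inner_N_sq_le {t : ℝ} (ht : t ∈ Icc a b) (x y : E) :
    ⟪x, S.N t y⟫ ^ 2 ≤ S.nrm t x * S.nrm t y := by
  rcases eq_or_ne y 0 with rfl | hy
  · simp [nrm]
  · have hy' : 0 < S.nrm t y := S.posN t ht y hy
    set r := ⟪x, S.N t y⟫ / S.nrm t y
    have h := nrm_nonneg (S := S) ht (x - r • y)
    have e : ⟪y, S.N t x⟫ = ⟪x, S.N t y⟫ := by rw [← S.symN t ht, real_inner_comm]
    have hr : r * S.nrm t y = ⟪x, S.N t y⟫ := div_mul_cancel₀ _ hy'.ne'
    simp only [nrm, map_sub, map_smul, inner_sub_left, inner_sub_right, real_inner_smul_left,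
      real_inner_smul_right, e] at h hr ⊢
    have := mul_le_mul_of_nonneg_left h hy'.le
    simp only [nrm] at this
    nlinarith

theorem sqrt_nrm_add_le {t : ℝ} (ht : t ∈ Icc a b) (x y : E) :
    √(S.nrm t (x + y)) ≤ √(S.nrm t x) + √(S.nrm t y) := by
  have hA := nrm_nonneg (S := S) ht x
  have hB := nrm_nonneg (S := S) ht y
  have hcs : ⟪x, S.N t y⟫ ≤ √(S.nrm t x) * √(S.nrm t y) := by
    rw [← Real.sqrt_mul hA]
    exact (le_abs_self _).trans (Real.abs_le_sqrt (inner_N_sq_le ht x y))
  have e : S.nrm t (x + y) = S.nrm t x + 2 * ⟪x, S.N t y⟫ + S.nrm t y := by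
    simp only [nrm, map_add, inner_add_left, inner_add_right,
      show ⟪y, S.N t x⟫ = ⟪x, S.N t y⟫ by rw [← S.symN t ht, real_inner_comm]]
    ring
  refine Real.sqrt_le_iff.2 ⟨by positivity, ?_⟩
  rw [e, add_sq, Real.sq_sqrt hA, Real.sq_sqrt hB]
  linarith

theorem sqrt_rate {t t' : ℝ} {x x' : E} {r : ℝ}
    (h : S.nrm t x ≤ Real.exp (2 * r) * S.nrm t' x') :
    √(S.nrm t x) ≤ Real.exp r * √(S.nrm t' x') := by
  refine (Real.sqrt_le_sqrt h).trans (le_of_eq ?_)
  rw [Real.sqrt_mul (Real.exp_pos _).le, two_mul, Real.exp_add, Real.sqrt_mul_self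
    (Real.exp_pos _).le]

/-- The product over `n` blocks. -/
theorem product_le {lo M n : ℕ} {T : ℕ → ℝ} {R Dm : ℝ} {F : ℕ → Submodule ℝ E} (hR : 0 ≤ R)
    (hT : ∀ k ≤ n, T k ∈ Icc a b) (hstep : ∀ k < n, T k ≤ T (k + 1) ∧ T (k + 1) - T k ≤ Dm)
    (hF : ∀ l, lo < l → l ≤ M → F (l - 1) ≤ F l)
    (hbase : ∀ k < n, ∀ x ∈ F lo,
      S.nrm (T k) x ≤ Real.exp (2 * (R * (T (k + 1) - T k))) * S.nrm (T (k + 1)) x)
    (hseg : ∀ k < n, ∀ l, lo < l → l ≤ M → ∀ x ∈ F l,
      S.Seg (T k) (T (k + 1)) (F (l - 1)) (Real.exp (2 * (R * (T (k + 1) - T k)))) x) :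
    ∀ l, lo ≤ l → l ≤ M → ∀ x ∈ F l, ∀ i ≤ n, √(S.nrm (T 0) x) ≤
      (2 * (n + 1) * Real.exp ((|S.top| + ε) * |Dm|) + 1) ^ (l - lo) *
        Real.exp (R * (T i - T 0)) * √(S.nrm (T i) x) := by
  set A := Real.exp ((|S.top| + ε) * |Dm|)
  have hA : 1 ≤ A := Real.one_le_exp (mul_nonneg (add_nonneg (abs_nonneg _) S.hε) (abs_nonneg _))
  set C := 2 * ((n : ℝ) + 1) * A + 1
  intro l hl
  induction l, hl using Nat.le_induction with
  | base =>
    intro _ x hx i hi
    rw [Nat.sub_self, pow_zero, one_mul]
    induction i with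
    | zero => simp
    | succ i ih =>
      refine (ih (by omega)).trans ?_
      refine (mul_le_mul_of_nonneg_left (sqrt_rate (hbase i (by omega) x hx))
        (Real.exp_pos _).le).trans (le_of_eq ?_)
      rw [← mul_assoc, ← Real.exp_add]
      congr 2
      ring
  | succ l hl ih =>
    intro hlM x hx i hi
    have ih' := ih (by omega)
    set P := C ^ (l - lo)
    have hP : 1 ≤ P := one_le_pow₀ (by
      have : 0 ≤ 2 * ((n : ℝ) + 1) * A := mul_nonneg (by positivity) (by linarith)
      linarith)
    set X := √(S.nrm (T i) x)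
    -- the residues, backwards from `i`
    have key : ∀ d k, k + d = i → ∃ y ∈ F l,
        √(S.nrm (T k) (x - y)) ≤ Real.exp (R * (T i - T k)) * X ∧
        √(S.nrm (T 0) y) ≤ (d : ℝ) * (2 * A * P) * (Real.exp (R * (T i - T 0)) * X) := by
      intro d
      induction d with
      | zero =>
        intro k hk
        obtain rfl : k = i := by omega
        exact ⟨0, Submodule.zero_mem _, by simp [X], by simp [nrm_zero]⟩
      | succ d ihd =>
        intro k hk
        obtain ⟨y', hy', h1, h2⟩ := ihd (k + 1) (by omega)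
        have hs := hseg k (by omega) (l + 1) (by omega) hlM x hx
        rw [Nat.add_sub_cancel] at hs
        obtain ⟨y, hy, h3⟩ := hs y' hy'
        have hk0 : T k ∈ Icc a b := hT k (by omega)
        obtain ⟨hmono, hlen⟩ := hstep k (by omega)
        have h4 : √(S.nrm (T k) (x - y)) ≤ Real.exp (R * (T i - T k)) * X := by
          refine (sqrt_rate (r := R * (T (k + 1) - T k)) ?_).trans
            ((mul_le_mul_of_nonneg_left h1 (Real.exp_pos _).le).trans (le_of_eq ?_))
          · exact h3
          · rw [← mul_assoc, ← Real.exp_add]; congr 2; ring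
        have h5 : √(S.nrm (T k) (x - y')) ≤ A * (Real.exp (R * (T i - T k)) * X) := by
          have e1 := rate_top (S := S) hk0.1 (hT (k + 1) (by omega)).2 hmono (x - y')
          have e2 : S.nrm (T k) (x - y') ≤ Real.exp (2 * ((|S.top| + ε) * |Dm|)) *
              S.nrm (T (k + 1)) (x - y') := by
            refine e1.trans (mul_le_mul_of_nonneg_right (Real.exp_le_exp.2 ?_)
              (nrm_nonneg (hT (k + 1) (by omega)) _))
            have h6 : (2 * S.top + ε) * (T (k + 1) - T k) ≤ 2 * (|S.top| + ε) *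
                (T (k + 1) - T k) := mul_le_mul_of_nonneg_right
                  (by linarith [le_abs_self S.top, S.hε]) (by linarith)
            have h7 := mul_le_mul_of_nonneg_left (hlen.trans (le_abs_self Dm))
              (by linarith [abs_nonneg S.top, S.hε] : 0 ≤ 2 * (|S.top| + ε))
            linarith
          refine (sqrt_rate e2).trans (mul_le_mul_of_nonneg_left (h1.trans ?_) (by linarith))
          exact mul_le_mul_of_nonneg_right (Real.exp_le_exp.2
            (mul_le_mul_of_nonneg_left (by linarith) hR)) (Real.sqrt_nonneg _)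
        have hd : y - y' ∈ F l := Submodule.sub_mem _ hy hy'
        have h6 : √(S.nrm (T 0) (y - y')) ≤
            2 * A * P * (Real.exp (R * (T i - T 0)) * X) := by
          refine (ih' (y - y') hd k (by omega)).trans ?_
          have h7 : √(S.nrm (T k) (y - y')) ≤ 2 * A * (Real.exp (R * (T i - T k)) * X) := by
            rw [show y - y' = (x - y') + -(x - y) by abel]
            refine (sqrt_nrm_add_le hk0 _ _).trans ?_
            rw [nrm_neg]
            have h8 : 0 ≤ Real.exp (R * (T i - T k)) * X :=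
              mul_nonneg (Real.exp_pos _).le (Real.sqrt_nonneg _)
            nlinarith
          refine (mul_le_mul_of_nonneg_left h7 (mul_nonneg (by linarith)
            (Real.exp_pos _).le)).trans (le_of_eq ?_)
          rw [show R * (T i - T 0) = R * (T k - T 0) + R * (T i - T k) by ring, Real.exp_add]
          ring
        refine ⟨y, hy, h4, ?_⟩
        have h9 := sqrt_nrm_add_le (S := S) (hT 0 (Nat.zero_le _)) y' (y - y')
        rw [add_sub_cancel] at h9
        push_cast
        linarith
    obtain ⟨y, hy, h1, h2⟩ := key i 0 (by omega)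
    have h3 := sqrt_nrm_add_le (S := S) (hT 0 (Nat.zero_le _)) (x - y) y
    rw [sub_add_cancel] at h3
    have hY : 0 ≤ Real.exp (R * (T i - T 0)) * X :=
      mul_nonneg (Real.exp_pos _).le (Real.sqrt_nonneg _)
    have hin : (i : ℝ) ≤ n := by exact_mod_cast hi
    rw [show l + 1 - lo = (l - lo) + 1 by omega, pow_succ, mul_assoc]
    have h4 : (i : ℝ) * (2 * A * P) + 1 ≤ P * C := by
      have h5 := mul_le_mul_of_nonneg_right (show (i : ℝ) ≤ (n : ℝ) + 1 by linarith)
        (show 0 ≤ 2 * A * P by positivity)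
      have h6 : P * C = ((n : ℝ) + 1) * (2 * A * P) + P := by simp only [C]; ring
      linarith
    have h7 := mul_le_mul_of_nonneg_right h4 hY
    linarith

end DualSys

end

end Vale.Agent.P225.Disproof
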