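import Vale.Agent.P225.Disproof.Mix.Pair

/-!
# P225: the bound over all blocks

Blocks with one flag `F` and a budget `exp (2 R Δ)` per slot give `nrm (T 0) x ≤ C exp (2 R' t)`
for every `R' > R`, when blocks grow like squares and time like cubes; `C` is independent of the
number of blocks.
-/

namespace Vale.Agent.P225.Disproof

open Set Module
open scoped RealInnerProductSpace

noncomputable section

variable {E : Type*} [NormedAddCommGroup E] [InnerProductSpace ℝ E] [FiniteDimensional ℝ E]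
  {a b ε : ℝ}

/-- A polynomial times the exponential of a square is below the exponential of a cube. -/
theorem exists_cube_bound (p : ℕ) (A α : ℝ) {δ : ℝ} (hδ : 0 < δ) :
    ∃ C : ℝ, 0 ≤ C ∧ ∀ k : ℕ,
      (A * ((k : ℝ) + 1) * Real.exp (α * ((k : ℝ) + 1) ^ 2) + 1) ^ p *
        Real.exp (α * ((k : ℝ) + 1) ^ 2) ≤ C * Real.exp (δ * (k : ℝ) ^ 3) := by
  set β := ((p : ℝ) + 1) * (|α| + 1) * 4 with hβ
  have hβ0 : 0 < β := by positivity
  refine ⟨(|A| + 1) ^ p * Real.exp (β + β ^ 3 / δ ^ 2), by positivity, fun k => ?_⟩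
  set u := ((k : ℝ) + 1) ^ 2 with hu
  have hk : (0 : ℝ) ≤ k := Nat.cast_nonneg k
  have hu1 : 1 ≤ u := one_le_pow₀ (by linarith)
  have hku : (k : ℝ) + 1 ≤ Real.exp u := by
    have := Real.add_one_le_exp u
    nlinarith
  have hexp : Real.exp (α * u) ≤ Real.exp (|α| * u) :=
    Real.exp_le_exp.2 (mul_le_mul_of_nonneg_right (le_abs_self α) (by linarith))
  have hone : 1 ≤ Real.exp ((|α| + 1) * u) := Real.one_le_exp (by positivity)
  have hin : |A * ((k : ℝ) + 1) * Real.exp (α * u) + 1| ≤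
      (|A| + 1) * Real.exp ((|α| + 1) * u) := by
    refine (abs_add_le _ _).trans ?_
    rw [abs_one, abs_mul, abs_mul, abs_of_nonneg (by linarith : (0 : ℝ) ≤ (k : ℝ) + 1), Real.abs_exp,
      add_mul |A| 1, one_mul, mul_assoc]
    refine add_le_add (mul_le_mul_of_nonneg_left ?_ (abs_nonneg A)) hone
    rw [show (|α| + 1) * u = u + |α| * u by ring, Real.exp_add]
    exact mul_le_mul hku hexp (Real.exp_pos _).le (Real.exp_pos _).le
  have h1 : (A * ((k : ℝ) + 1) * Real.exp (α * u) + 1) ^ p * Real.exp (α * u) ≤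
      (|A| + 1) ^ p * Real.exp (((p : ℝ) + 1) * ((|α| + 1) * u)) := by
    rw [show ((p : ℝ) + 1) * ((|α| + 1) * u) = (p : ℝ) * ((|α| + 1) * u) + (|α| + 1) * u by ring,
      Real.exp_add, Real.exp_nat_mul, ← mul_assoc, ← mul_pow]
    refine mul_le_mul ((le_abs_self _).trans ?_) (hexp.trans (Real.exp_le_exp.2 (by nlinarith)))
      (Real.exp_pos _).le (by positivity)
    rw [abs_pow]
    exact pow_le_pow_left₀ (abs_nonneg _) hin p
  refine h1.trans ?_
  rw [mul_assoc ((|A| + 1) ^ p), ← Real.exp_add]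
  refine mul_le_mul_of_nonneg_left (Real.exp_le_exp.2 ?_) (by positivity)
  have h2 : ((p : ℝ) + 1) * ((|α| + 1) * u) ≤ β + β * (k : ℝ) ^ 2 := by
    have : u ≤ 2 + 2 * (k : ℝ) ^ 2 := by nlinarith [sq_nonneg ((k : ℝ) - 1)]
    have := mul_le_mul_of_nonneg_left this (by positivity : (0 : ℝ) ≤ ((p : ℝ) + 1) * (|α| + 1))
    nlinarith [abs_nonneg α]
  refine h2.trans ?_
  have h3 : β * (k : ℝ) ^ 2 ≤ β ^ 3 / δ ^ 2 + δ * (k : ℝ) ^ 3 := by
    rcases le_total (β / δ) (k : ℝ) with h | h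
    · rw [div_le_iff₀ hδ] at h
      have := mul_le_mul_of_nonneg_right h (sq_nonneg (k : ℝ))
      have : (0 : ℝ) ≤ β ^ 3 / δ ^ 2 := by positivity
      nlinarith
    · have h4 := mul_le_mul_of_nonneg_left (pow_le_pow_left₀ hk h 2) hβ0.le
      rw [show β * (β / δ) ^ 2 = β ^ 3 / δ ^ 2 by field_simp] at h4
      have : (0 : ℝ) ≤ δ * (k : ℝ) ^ 3 := by positivity
      linarith
  linarith

namespace DualSys

/-- The uniform bound over blocks, in squared norms. -/
theorem block_bound (lo M : ℕ) (τ0 R R' D d : ℝ) (hd : 0 < d) (hR : 0 ≤ R) (hRR : R < R')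
    (top : ℝ) : ∃ C : ℝ, ∀ {a b ε : ℝ} (S : DualSys E a b ε) (n : ℕ) (T : ℕ → ℝ)
    (F : ℕ → Submodule ℝ E),
    |S.top| + ε ≤ top → lo ≤ M → F M = ⊤ → T 0 = τ0 → (∀ k ≤ n, T k ∈ Icc a b) →
    (∀ k < n, T k ≤ T (k + 1) ∧ T (k + 1) - T k ≤ D * ((k : ℝ) + 1) ^ 2) →
    (∀ k ≤ n, d * (k : ℝ) ^ 3 ≤ T k - T 0) →
    (∀ l, lo < l → l ≤ M → F (l - 1) ≤ F l) →
    (∀ k < n, ∀ x ∈ F lo,
      S.nrm (T k) x ≤ Real.exp (2 * (R * (T (k + 1) - T k))) * S.nrm (T (k + 1)) x) →
    (∀ k < n, ∀ l, lo < l → l ≤ M → ∀ x ∈ F l,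
      S.Seg (T k) (T (k + 1)) (F (l - 1)) (Real.exp (2 * (R * (T (k + 1) - T k)))) x) →
    ∀ x : E, ∀ t ∈ Icc (T 0) (T n),
      S.nrm (T 0) x ≤ C * Real.exp (2 * R' * (t - τ0)) * S.nrm t x := by
  obtain ⟨C, hC0, hC⟩ := exists_cube_bound (M - lo) 2 (|top| * |D|)
    (δ := (R' - R) * d) (mul_pos (by linarith) hd)
  refine ⟨C ^ 2, fun {a b ε} S n T F htop hlM hFM hT0 hT hstep hcube hF hbase hseg x t ht => ?_⟩
  -- the block containing `t`
  obtain ⟨k, hkn, hkt, htk⟩ : ∃ k ≤ n, T k ≤ t ∧ (k = n ∨ t ≤ T (k + 1)) := by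
    classical
    refine ⟨Nat.findGreatest (fun j => T j ≤ t) n, Nat.findGreatest_le n,
      Nat.findGreatest_spec (P := fun j => T j ≤ t) (Nat.zero_le n) ht.1, ?_⟩
    rcases (Nat.findGreatest_le (P := fun j => T j ≤ t) n).eq_or_lt with he | hlt
    · exact Or.inl he
    · exact Or.inr (not_le.1 fun hle => Nat.findGreatest_is_greatest
        (P := fun j => T j ≤ t) (Nat.lt_succ_self _) hlt hle).le
  have hgap : t - T k ≤ |D| * ((k : ℝ) + 1) ^ 2 := by
    rcases htk with rfl | htk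
    · have : 0 ≤ |D| * ((k : ℝ) + 1) ^ 2 := by positivity
      linarith [ht.2]
    · rcases hkn.eq_or_lt with rfl | hlt
      · have : 0 ≤ |D| * ((k : ℝ) + 1) ^ 2 := by positivity
        linarith [ht.2]
      · have h2 := (hstep k hlt).2
        have h3 := mul_le_mul_of_nonneg_right (le_abs_self D) (sq_nonneg ((k : ℝ) + 1))
        linarith
  have hp := product_le (S := S) (n := k) (T := T) (Dm := |D| * ((k : ℝ) + 1) ^ 2) hR
    (fun j hj => hT j (by omega)) (fun j hj => by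
      obtain ⟨h1, h2⟩ := hstep j (by omega)
      refine ⟨h1, h2.trans ?_⟩
      have hjk : ((j : ℝ) + 1) ^ 2 ≤ ((k : ℝ) + 1) ^ 2 := by
        have : (j : ℝ) ≤ k := by exact_mod_cast hj.le
        exact pow_le_pow_left₀ (by positivity) (by linarith) 2
      exact (mul_le_mul_of_nonneg_right (le_abs_self D) (sq_nonneg _)).trans
        (mul_le_mul_of_nonneg_left hjk (abs_nonneg D)))
    hF (fun j hj => hbase j (by omega)) (fun j hj => hseg j (by omega)) M hlM le_rfl x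
    (by rw [hFM]; exact Submodule.mem_top) k le_rfl
  have hI : t ∈ Icc a b := ⟨(hT 0 (Nat.zero_le _)).1.trans ht.1, ht.2.trans (hT n le_rfl).2⟩
  have htop0 : 0 ≤ top := (add_nonneg (abs_nonneg _) S.hε).trans htop
  have hrt : √(S.nrm (T k) x) ≤ Real.exp (|top| * |D| * ((k : ℝ) + 1) ^ 2) * √(S.nrm t x) := by
    refine sqrt_rate ((rate_top (S := S) (hT k hkn).1 hI.2 hkt x).trans
      (mul_le_mul_of_nonneg_right (Real.exp_le_exp.2 ?_) (nrm_nonneg hI x)))
    have h2 : 2 * S.top + ε ≤ 2 * |top| := by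
      rw [abs_of_nonneg htop0]
      linarith [le_abs_self S.top, S.hε]
    have h3 := mul_le_mul h2 hgap (by linarith) (by positivity)
    nlinarith
  have hA : Real.exp ((|S.top| + ε) * |(|D| * ((k : ℝ) + 1) ^ 2)|) ≤
      Real.exp (|top| * |D| * ((k : ℝ) + 1) ^ 2) := by
    refine Real.exp_le_exp.2 ?_
    rw [abs_of_nonneg (mul_nonneg (abs_nonneg D) (sq_nonneg _)), mul_assoc |top|]
    exact mul_le_mul_of_nonneg_right (htop.trans (le_abs_self top)) (by positivity)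
  have hRd : Real.exp (R * (T k - T 0)) * Real.exp ((R' - R) * d * (k : ℝ) ^ 3) ≤
      Real.exp (R' * (t - τ0)) := by
    rw [← Real.exp_add]
    refine Real.exp_le_exp.2 ?_
    have h4 := mul_le_mul_of_nonneg_left (hcube k hkn) (by linarith : 0 ≤ R' - R)
    have h5 := mul_le_mul_of_nonneg_left (show T k - τ0 ≤ t - τ0 by linarith)
      (by linarith : 0 ≤ R')
    rw [hT0] at h4 ⊢
    linarith
  set X := √(S.nrm t x)
  have hmain : √(S.nrm (T 0) x) ≤ C * (Real.exp (R' * (t - τ0)) * X) := by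
    have hpow : (2 * ((k : ℝ) + 1) *
        Real.exp ((|S.top| + ε) * |(|D| * ((k : ℝ) + 1) ^ 2)|) + 1) ^ (M - lo) ≤
        (2 * ((k : ℝ) + 1) * Real.exp (|top| * |D| * ((k : ℝ) + 1) ^ 2) + 1) ^ (M - lo) := by
      refine pow_le_pow_left₀ (by positivity) ?_ _
      have := mul_le_mul_of_nonneg_left hA (by positivity : (0 : ℝ) ≤ 2 * ((k : ℝ) + 1))
      linarith
    refine hp.trans ((mul_le_mul (mul_le_mul_of_nonneg_right hpow (Real.exp_pos _).le) hrt
      (Real.sqrt_nonneg _) (by positivity)).trans ?_)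
    rw [show ∀ P e q Y : ℝ, P * e * (q * Y) = P * q * (e * Y) from fun _ _ _ _ => by ring]
    refine (mul_le_mul_of_nonneg_right (hC k) (by positivity)).trans ?_
    rw [mul_assoc]
    refine mul_le_mul_of_nonneg_left ?_ hC0
    rw [← mul_assoc, mul_comm (Real.exp ((R' - R) * d * (k : ℝ) ^ 3))]
    exact mul_le_mul_of_nonneg_right hRd (Real.sqrt_nonneg _)
  have hsq := pow_le_pow_left₀ (Real.sqrt_nonneg _) hmain 2
  rw [Real.sq_sqrt (nrm_nonneg (hT 0 (Nat.zero_le _)) x), mul_pow, mul_pow,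
    Real.sq_sqrt (nrm_nonneg hI x)] at hsq
  refine hsq.trans (le_of_eq ?_)
  rw [← Real.exp_nat_mul]
  push_cast
  ring_nf

end DualSys

namespace Block

variable {S : DualSys E a b ε} {lev : ℕ → ℝ} {lo M : ℕ} {c T B : ℝ} {t0 te tm te' ef t2 R : ℝ}
  {F G G' HA HB : ℕ → Submodule ℝ E}

/-- Slots within the budget. -/
theorem seg_budget (h : Block S lev lo M c T B t0 te tm te' ef t2 F G G' HA HB) {l : ℕ}
    (h1 : lo < l) (h2 : l ≤ M) (hle : F (l - 1) ≤ F l)
    (hbud : Real.log (40 * B ^ 2 / c ^ 2) + blockExp lev lo M S.top ε T t0 te tm ef t2 l ≤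
      2 * (R * (t2 - t0))) {x : E} (hx : x ∈ F l) :
    S.Seg t0 t2 (F (l - 1)) (Real.exp (2 * (R * (t2 - t0)))) x := fun y' hy' => by
  obtain ⟨y, hy, hle'⟩ := h.seg h1 h2 hle hx y' hy'
  refine ⟨y, hy, hle'.trans (mul_le_mul_of_nonneg_right ?_ ?_)⟩
  · have hK : 0 < 40 * B ^ 2 / c ^ 2 := by
      have := h.hc
      have : 0 < B := h.hc.trans_le h.hcB
      positivity
    calc 40 * B ^ 2 / c ^ 2 * Real.exp (blockExp lev lo M S.top ε T t0 te tm ef t2 l)
        = Real.exp (Real.log (40 * B ^ 2 / c ^ 2) +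
            blockExp lev lo M S.top ε T t0 te tm ef t2 l) := by
          rw [Real.exp_add, Real.exp_log hK]
      _ ≤ _ := Real.exp_le_exp.2 hbud
  · have h01 := h.h₁; have h02 := h.h₂; have h03 := h.h₃; have h04 := h.h₄; have h05 := h.h₅
    have hT := h.hT
    exact DualSys.nrm_nonneg (h.mem_I (by linarith) le_rfl) _

end Block

end

end Vale.Agent.P225.Disproof
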