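import Vale.Agent.P225.Disproof.Mix.Timed

/-!
# P225: a nested low flag

A negative plane extends inside the form to every dimension below the index, and a plane low at
one level is low at every higher level: so low planes of each dimension give a nested low flag.
-/

namespace Vale.Agent.P225.Disproof

open Set Module
open scoped RealInnerProductSpace

noncomputable section

variable {E : Type*} [NormedAddCommGroup E] [InnerProductSpace ℝ E] [FiniteDimensional ℝ E]
  {a b ε : ℝ}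

/-- A negative plane extends by one dimension below the negative index. -/
theorem exists_neg_succ {Q : E →L[ℝ] E} (hQ : ∀ x y : E, ⟪Q x, y⟫ = ⟪x, Q y⟫)
    {W W' : Submodule ℝ E} (hW : ∀ x ∈ W, x ≠ 0 → Mix.qf Q x < 0)
    (hW' : ∀ x ∈ W', x ≠ 0 → Mix.qf Q x < 0) (hd : finrank ℝ W < finrank ℝ W') :
    ∃ W'' : Submodule ℝ E, W ≤ W'' ∧ finrank ℝ W'' = finrank ℝ W + 1 ∧
      ∀ x ∈ W'', x ≠ 0 → Mix.qf Q x < 0 := by
  obtain ⟨y, hy, hy0⟩ := (Submodule.ne_bot_iff (W' ⊓ (W.map (Q : E →ₗ[ℝ] E))ᗮ)).1 fun hbot => by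
    have h1 := Submodule.finrank_sup_add_finrank_inf_eq W' (W.map (Q : E →ₗ[ℝ] E))ᗮ
    rw [hbot, finrank_bot] at h1
    have h2 := Submodule.finrank_le (W' ⊔ (W.map (Q : E →ₗ[ℝ] E))ᗮ)
    have h3 := Submodule.finrank_add_finrank_orthogonal (W.map (Q : E →ₗ[ℝ] E))
    have h4 := Submodule.finrank_map_le (Q : E →ₗ[ℝ] E) W
    omega
  have hperp : ∀ w ∈ W, ⟪Q w, y⟫ = 0 := fun w hw =>
    (Submodule.mem_orthogonal _ _).1 hy.2 _ (Submodule.mem_map_of_mem hw)
  have hyW : y ∉ W := fun h => by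
    have h1 := hW y h hy0
    have h2 := hperp y h
    rw [Mix.qf, real_inner_comm, h2] at h1
    exact lt_irrefl _ h1
  refine ⟨W ⊔ Submodule.span ℝ {y}, le_sup_left, ?_, fun x hx hx0 => ?_⟩
  · have h1 := Submodule.finrank_sup_add_finrank_inf_eq W (Submodule.span ℝ {y})
    have h2 : W ⊓ Submodule.span ℝ {y} = ⊥ := (Submodule.eq_bot_iff _).2 fun z hz => by
      obtain ⟨c, rfl⟩ := Submodule.mem_span_singleton.1 hz.2
      by_contra hne
      exact hyW ((W.smul_mem_iff (fun hc => hne (by rw [hc, zero_smul]))).1 hz.1)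
    rw [h2, finrank_bot, finrank_span_singleton hy0] at h1
    omega
  · obtain ⟨w, hw, z, hz, rfl⟩ := Submodule.mem_sup.1 hx
    obtain ⟨c, rfl⟩ := Submodule.mem_span_singleton.1 hz
    have e := Mix.qf_smul_add Q hQ 1 c w y
    rw [one_smul, show ⟪w, Q y⟫ = 0 by rw [← hQ]; exact hperp w hw] at e
    have hy1 := hW' y hy.1 hy0
    rcases eq_or_ne w 0 with rfl | hw0
    · have hc : c ≠ 0 := fun hc => hx0 (by rw [hc, zero_smul, add_zero])
      rw [e, show Mix.qf Q (0 : E) = 0 by simp [Mix.qf]]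
      nlinarith [pow_pos (abs_pos.2 hc) 2, sq_abs c]
    · have := hW w hw hw0
      rw [e]
      nlinarith [sq_nonneg c]

/-- Low planes of every dimension give a nested low flag. -/
theorem exists_flag (S : DualSys E a b ε) {t : ℝ} (ht : t ∈ Icc a b) {lev : ℕ → ℝ} {lo M : ℕ}
    (hlo : lo ≤ M) (hmono : ∀ l, lo ≤ l → l < M → lev l ≤ lev (l + 1))
    (hex : ∀ l, lo ≤ l → l ≤ M → ∃ W : Submodule ℝ E, finrank ℝ W = l ∧
      ∀ x ∈ W, x ≠ 0 → S.cone (lev l) t x < 0) :
    ∃ F : ℕ → Submodule ℝ E, (∀ l, lo ≤ l → l ≤ M → finrank ℝ (F l) = l) ∧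
      (∀ l, lo ≤ l → l < M → F l ≤ F (l + 1)) ∧
      ∀ l, lo ≤ l → l ≤ M → ∀ x ∈ F l, x ≠ 0 → S.cone (lev l) t x < 0 := by
  suffices ∀ d, lo + d ≤ M → ∃ F : ℕ → Submodule ℝ E,
      (∀ l, lo ≤ l → l ≤ lo + d → finrank ℝ (F l) = l) ∧
      (∀ l, lo ≤ l → l < lo + d → F l ≤ F (l + 1)) ∧
      ∀ l, lo ≤ l → l ≤ lo + d → ∀ x ∈ F l, x ≠ 0 → S.cone (lev l) t x < 0 by
    have := this (M - lo) (by omega)
    rwa [show lo + (M - lo) = M by omega] at this
  intro d
  induction d with
  | zero =>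
    intro _
    obtain ⟨W, hW, hW'⟩ := hex lo le_rfl hlo
    refine ⟨fun _ => W, fun l h1 h2 => ?_, fun l h1 h2 => le_rfl, fun l h1 h2 => ?_⟩
    · rw [show l = lo by omega]; exact hW
    · rw [show l = lo by omega]; exact hW'
  | succ d ih =>
    intro hd
    obtain ⟨F, hFd, hFm, hFn⟩ := ih (by omega)
    obtain ⟨W, hW, hW'⟩ := hex (lo + d + 1) (by omega) hd
    set Q := S.En t - lev (lo + d + 1) • S.N t
    have hqf : ∀ x, Mix.qf Q x = S.cone (lev (lo + d + 1)) t x := fun x => by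
      simp [Q, Mix.qf, DualSys.cone, inner_sub_right, real_inner_smul_right]
    have hQ : ∀ x y : E, ⟪Q x, y⟫ = ⟪x, Q y⟫ := fun x y => by
      simp [Q, inner_sub_left, inner_sub_right, real_inner_smul_left, real_inner_smul_right,
        S.symN t ht, S.symEn t ht]
    obtain ⟨W'', hle, hd'', hneg⟩ := exists_neg_succ hQ (W := F (lo + d)) (W' := W)
      (fun x hx hx0 => by
        rw [hqf]
        exact lt_of_le_of_lt (DualSys.cone_mono_level ht (hmono _ (by omega) (by omega)) x)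
          (hFn _ (by omega) le_rfl x hx hx0))
      (fun x hx hx0 => by rw [hqf]; exact hW' x hx hx0)
      (by rw [hW, hFd _ (by omega) le_rfl]; omega)
    refine ⟨fun l => if l ≤ lo + d then F l else W'', fun l h1 h2 => ?_, fun l h1 h2 => ?_,
      fun l h1 h2 => ?_⟩
    · by_cases hl : l ≤ lo + d
      · beta_reduce; rw [if_pos hl]; exact hFd l h1 hl
      · beta_reduce; rw [if_neg hl, hd'', hFd _ (show lo ≤ lo + d by omega) le_rfl]; omega
    · by_cases hl : l + 1 ≤ lo + d
      · simp only [if_pos hl, if_pos (show l ≤ lo + d by omega)]; exact hFm l h1 (by omega)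
      · simp only [if_neg hl, if_pos (show l ≤ lo + d by omega)]
        rw [show l = lo + d by omega]
        exact hle
    · by_cases hl : l ≤ lo + d
      · simp only [if_pos hl]; exact hFn l h1 hl
      · simp only [if_neg hl]
        intro x hx hx0
        rw [show l = lo + d + 1 by omega, ← hqf]
        exact hneg x hx hx0

end

end Vale.Agent.P225.Disproof
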