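import Vale.Agent.P225.Disproof.Mix.Frame

/-!
# P225: flags along a chain of checkpoints

At checkpoint `k` the level `l` has the form `Q k l` and the coordinate map `π k l` with high
kernel. `J` is the recursion of low frames forwards, `R` the recursion of high planes backwards,
as kernels of maps normalised by `R ∘ J = 1`. Each is continuous in every parameter.
-/

namespace Vale.Agent.P225.Disproof.Mix

open scoped RealInnerProductSpace
open ContinuousLinearMap Module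

noncomputable section

variable {E : Type*} [NormedAddCommGroup E] [InnerProductSpace ℝ E] [FiniteDimensional ℝ E]

/-- A vector orthogonal to a negative section of a map with positive kernel is positive. -/
theorem perp_pos {n : ℕ} {Q : E →L[ℝ] E} (hQ : ∀ x y : E, ⟪Q x, y⟫ = ⟪x, Q y⟫)
    {π : E →L[ℝ] Co n} (hπ : ∀ x, π x = 0 → x ≠ 0 → 0 < qf Q x) {J : Co n →L[ℝ] E}
    (hJ : ∀ v, π (J v) = v) (hneg : ∀ v, v ≠ 0 → qf Q (J v) < 0) {z : E} (hz : z ≠ 0)
    (horth : ∀ v, ⟪z, Q (J v)⟫ = 0) : 0 < qf Q z := by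
  by_contra hc
  push Not at hc
  set w : E := z - J (π z)
  have hw : π w = 0 := by simp [w, hJ]
  have he : qf Q w = qf Q z + qf Q (J (π z)) := by
    have h := qf_smul_add Q hQ 1 (-1) z (J (π z))
    rw [one_smul, neg_one_smul, ← sub_eq_add_neg, horth] at h
    linarith
  rcases eq_or_ne (π z) 0 with h0 | h0
  · exact not_lt.2 hc (hπ z h0 hz)
  · have hwne : w ≠ 0 := fun hw0 => by
      have h1 := horth (π z)
      refine (hneg _ h0).ne ?_
      rw [qf]
      nth_rw 1 [← sub_eq_zero.1 hw0]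
      exact h1
    linarith [hπ w hw hwne, hneg _ h0]

/-- The form of a map with a negative section and positive kernel is nondegenerate. -/
theorem isUnit_form {n : ℕ} {Q : E →L[ℝ] E} (hQ : ∀ x y : E, ⟪Q x, y⟫ = ⟪x, Q y⟫)
    {π : E →L[ℝ] Co n} (hπ : ∀ x, π x = 0 → x ≠ 0 → 0 < qf Q x) {J : Co n →L[ℝ] E}
    (hJ : ∀ v, π (J v) = v) (hneg : ∀ v, v ≠ 0 → qf Q (J v) < 0) : IsUnit Q :=
  isUnit_of_ker fun z hz => by
    by_contra h
    refine (perp_pos hQ hπ hJ hneg h fun v => ?_).ne' ?_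
    · rw [← hQ, hz, inner_zero_left]
    · rw [qf, hz, inner_zero_right]

theorem sym_inverse {Q : E →L[ℝ] E} (hu : IsUnit Q) (hQ : ∀ x y : E, ⟪Q x, y⟫ = ⟪x, Q y⟫)
    (x y : E) : ⟪Ring.inverse Q x, y⟫ = ⟪x, Ring.inverse Q y⟫ := by
  conv_lhs => rw [← apply_inv hu y, ← hQ, apply_inv hu]

theorem qf_inverse {Q : E →L[ℝ] E} (hu : IsUnit Q) (y : E) :
    qf (Ring.inverse Q) y = qf Q (Ring.inverse Q y) := by
  rw [qf, qf, apply_inv hu, real_inner_comm]

/-- The data of a chain. -/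
structure CData (E : Type*) [NormedAddCommGroup E] [InnerProductSpace ℝ E]
    [FiniteDimensional ℝ E] where
  Q : ℕ → ℕ → E →L[ℝ] E
  proj : ∀ _k l : ℕ, E →L[ℝ] Co l
  C0 : ℕ → E →L[ℝ] E
  jf : ℕ → ℕ
  K : ℕ

namespace CData

variable (D : CData E)

/-- The low frames. -/
def J : ∀ _k l : ℕ, Co l →L[ℝ] E
  | 0, l => normFrame (D.proj 0 l) (D.C0 l)
  | k + 1, l => if l = D.jf k then
      cut (D.Q (k + 1) l) (D.proj (k + 1) l) (J k (l - 1)) (J k (l + 1))
    else J k l ∘L Ring.inverse (D.proj (k + 1) l ∘L J k l)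

/-- The high planes, `i` steps before the end. -/
def Rb : ∀ _i l : ℕ, E →L[ℝ] Co l
  | 0, l => D.proj D.K l
  | i + 1, l => if l = D.jf (D.K - (i + 1)) then
      (adjoint (cut (Ring.inverse (D.Q (D.K - (i + 1)) l)) (adjoint (D.J (D.K - (i + 1)) l))
        (adjoint (Rb i (l - 1))) (adjoint (Rb i (l + 1)))))
    else Ring.inverse (Rb i l ∘L D.J (D.K - (i + 1)) l) ∘L Rb i l

/-- The high planes at checkpoint `k`, as maps. -/
def R (k l : ℕ) : E →L[ℝ] Co l := D.Rb (D.K - k) l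

/-- The equation of loop `k`. -/
def eqn (k : ℕ) : ℝ := (D.R (k + 1) (D.jf k) ∘L D.J k (D.jf k)).det

/-- The low plane. -/
def W (k l : ℕ) : Submodule ℝ E := LinearMap.range (D.J k l : Co l →ₗ[ℝ] E)

/-- The high plane. -/
def H (k l : ℕ) : Submodule ℝ E := LinearMap.ker (D.R k l : E →ₗ[ℝ] Co l)

theorem R_last (l : ℕ) : D.R D.K l = D.proj D.K l := by rw [R, Nat.sub_self]; rfl

theorem R_step {k : ℕ} (hk : k < D.K) (l : ℕ) : D.R k l = if l = D.jf k then
      (adjoint (cut (Ring.inverse (D.Q k l)) (adjoint (D.J k l)) (adjoint (D.R (k + 1) (l - 1)))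
        (adjoint (D.R (k + 1) (l + 1)))))
    else Ring.inverse (D.R (k + 1) l ∘L D.J k l) ∘L D.R (k + 1) l := by
  have h1 : D.K - k = D.K - (k + 1) + 1 := by omega
  have h2 : D.K - (D.K - (k + 1) + 1) = k := by omega
  rw [R, h1, Rb, h2]
  rfl

end CData

/-- The hypotheses of a chain with levels `lo ≤ l ≤ M`; a step with `M < jf k` has no loop. -/
structure IsChain (D : CData E) (lo M : ℕ) : Prop where
  hM : finrank ℝ E = M
  hlo : lo ≤ M
  symQ : ∀ k ≤ D.K, ∀ l, lo ≤ l → l ≤ M → ∀ x y : E, ⟪D.Q k l x, y⟫ = ⟪x, D.Q k l y⟫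
  ker_pos : ∀ k ≤ D.K, ∀ l, lo ≤ l → l ≤ M → ∀ x, D.proj k l x = 0 → x ≠ 0 → 0 < qf (D.Q k l) x
  mono : ∀ k ≤ D.K, ∀ l l', lo ≤ l → l ≤ l' → l' ≤ M → ∀ x, qf (D.Q k l') x ≤ qf (D.Q k l) x
  keepLow : ∀ k < D.K, ∀ l, lo ≤ l → l ≤ M → l ≠ D.jf k →
    ∀ x, x ≠ 0 → qf (D.Q k l) x ≤ 0 → qf (D.Q (k + 1) l) x < 0
  keepHigh : ∀ k < D.K, ∀ l, lo ≤ l → l ≤ M → l ≠ D.jf k →
    ∀ x, x ≠ 0 → 0 ≤ qf (D.Q (k + 1) l) x → 0 < qf (D.Q k l) x
  jf_mem : ∀ k < D.K, lo < D.jf k ∧ D.jf k < M ∨ M < D.jf k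
  nestLow : ∀ k < D.K, D.jf k < M → ∀ U : Submodule ℝ E, finrank ℝ U = D.jf k + 1 →
    (∀ x ∈ U, x ≠ 0 → qf (D.Q k (D.jf k + 1)) x < 0) →
    ∃ V ≤ U, finrank ℝ V = D.jf k ∧ ∀ x ∈ V, x ≠ 0 → qf (D.Q (k + 1) (D.jf k)) x < 0
  nestHigh : ∀ k < D.K, D.jf k < M → ∀ U : Submodule ℝ E, finrank ℝ U + (D.jf k - 1) = M →
    (∀ x ∈ U, x ≠ 0 → 0 < qf (D.Q (k + 1) (D.jf k - 1)) x) →
    ∃ V ≤ U, finrank ℝ V + D.jf k = M ∧ ∀ x ∈ V, x ≠ 0 → 0 < qf (D.Q k (D.jf k)) x
  init_dim : ∀ l, lo ≤ l → l ≤ M → finrank ℝ (LinearMap.ker (D.C0 l : E →ₗ[ℝ] E)) = l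
  init_mono : ∀ l, lo ≤ l → l < M →
    LinearMap.ker (D.C0 l : E →ₗ[ℝ] E) ≤ LinearMap.ker (D.C0 (l + 1) : E →ₗ[ℝ] E)
  init_neg : ∀ l, lo ≤ l → l ≤ M → ∀ x, D.C0 l x = 0 → x ≠ 0 → qf (D.Q 0 l) x < 0
  term_nest : ∀ l, lo ≤ l → l < M → ∀ x, D.proj D.K (l + 1) x = 0 → D.proj D.K l x = 0

namespace IsChain

variable {D : CData E} {lo M : ℕ}

theorem normFrame_init (h : IsChain D lo M) {l : ℕ} (h1 : lo ≤ l) (h2 : l ≤ M) :
    (∀ x, D.proj 0 l x = 0 → D.C0 l x = 0 → x = 0) ∧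
      (∀ y, ∃ x, D.proj 0 l x = y ∧ D.C0 l x = 0) := by
  set U := LinearMap.ker (D.C0 l : E →ₗ[ℝ] E)
  have h0 : ∀ x, D.proj 0 l x = 0 → D.C0 l x = 0 → x = 0 := fun x hx hx' => by
    by_contra hne
    exact lt_asymm (h.ker_pos 0 (Nat.zero_le _) l h1 h2 x hx hne) (h.init_neg l h1 h2 x hx' hne)
  refine ⟨h0, fun y => ?_⟩
  have hinj : Function.Injective ((D.proj 0 l : E →ₗ[ℝ] Co l).comp U.subtype) :=
    (injective_iff_map_eq_zero _).2 fun x hx => Subtype.ext (h0 x hx x.2)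
  obtain ⟨x, hx⟩ := (LinearMap.injective_iff_surjective_of_finrank_eq_finrank
    (by rw [h.init_dim l h1 h2, finrank_euclideanSpace_fin])).1 hinj y
  exact ⟨x, hx, x.2⟩

theorem isUnit_renorm {X : Type*} [NormedAddCommGroup X] [InnerProductSpace ℝ X]
    [FiniteDimensional ℝ X] {P : E →L[ℝ] X} {J : X →L[ℝ] E} {Q : E →L[ℝ] E}
    (hneg : ∀ v, v ≠ 0 → qf Q (J v) < 0) (hP : ∀ x, P x = 0 → x ≠ 0 → 0 < qf Q x) :
    IsUnit (P ∘L J) := isUnit_of_ker fun v hv => by
  by_contra hne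
  have hJ : J v ≠ 0 := fun h0 => by
    have := hneg v hne
    rw [h0, qf, inner_zero_left] at this
    exact lt_irrefl _ this
  exact lt_asymm (hneg v hne) (hP _ hv hJ)

/-- The state of the low frames at a checkpoint. -/
def LowState (D : CData E) (lo M k : ℕ) : Prop :=
  (∀ l, lo ≤ l → l ≤ M → (∀ v, D.proj k l (D.J k l v) = v) ∧
    ∀ v, v ≠ 0 → qf (D.Q k l) (D.J k l v) < 0) ∧
  ∀ l, lo ≤ l → l < M → D.W k l ≤ D.W k (l + 1)

theorem J_ne_zero {k l : ℕ} (h : ∀ v, D.proj k l (D.J k l v) = v) {v : Co l} (hv : v ≠ 0) :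
    D.J k l v ≠ 0 := fun h0 => hv (by rw [← h v, h0, map_zero])

variable (h : IsChain D lo M)
include h

theorem lowState_zero : LowState D lo M 0 := by
  refine ⟨fun l h1 h2 => ?_, fun l h1 h2 => ?_⟩
  · obtain ⟨a, b⟩ := h.normFrame_init h1 h2
    obtain ⟨s1, s2, -, -⟩ := normFrame_spec a b
    exact ⟨s1, fun v hv => h.init_neg l h1 h2 _ (s2 v) (J_ne_zero s1 hv)⟩
  · obtain ⟨a, b⟩ := h.normFrame_init h1 h2.le
    obtain ⟨a', b'⟩ := h.normFrame_init (h1.trans (Nat.le_succ l)) h2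
    rintro _ ⟨v, rfl⟩
    exact ⟨_, (normFrame_spec a' b').2.2.1 _ (h.init_mono l h1 h2 ((normFrame_spec a b).2.1 v))⟩

theorem cutHyp_low {k : ℕ} (hk : k < D.K) (ih : LowState D lo M k) (hj : D.jf k < M) :
    CutHyp (D.Q (k + 1) (D.jf k)) (D.proj (k + 1) (D.jf k)) (D.J k (D.jf k - 1))
      (D.J k (D.jf k + 1)) := by
  obtain ⟨hlo, -⟩ := (h.jf_mem k hk).resolve_right (by omega)
  set j := D.jf k
  have hb := ih.1 (j + 1) (by omega) (by omega)
  have hs := ih.1 (j - 1) (by omega) (by omega)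
  have hbi : Function.Injective (D.J k (j + 1)) := Function.LeftInverse.injective hb.1
  refine ⟨rfl, h.symQ _ hk j hlo.le hj.le, h.ker_pos _ hk j hlo.le hj.le, fun v hv => ?_, hbi,
    ?_, ?_⟩
  · exact lt_of_le_of_lt (h.mono _ hk (j - 1) j (by omega) (by omega) hj.le _)
      (h.keepLow k hk _ (by omega) (by omega) (by omega) _ (J_ne_zero hs.1 hv) (hs.2 v hv).le)
  · have h1 := ih.2 (j - 1) (by omega) (by omega)
    have h2 := ih.2 j hlo.le hj
    rw [show j - 1 + 1 = j by omega] at h1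
    exact h1.trans h2
  · refine h.nestLow k hk hj _ ?_ ?_
    · rw [LinearMap.finrank_range_of_inj hbi, finrank_euclideanSpace_fin]
    · rintro _ ⟨v, rfl⟩ hx
      exact hb.2 v fun hv => hx (by rw [hv]; exact map_zero _)

theorem W_step {k : ℕ} (hk : k < D.K) (ih : LowState D lo M k) {l : ℕ} (h1 : lo ≤ l)
    (h2 : l ≤ M) (hne : l ≠ D.jf k) :
    D.W (k + 1) l = D.W k l ∧ IsUnit (D.proj (k + 1) l ∘L D.J k l) := by
  obtain ⟨s1, s2⟩ := ih.1 l h1 h2
  have hu : IsUnit (D.proj (k + 1) l ∘L D.J k l) := isUnit_renorm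
    (fun v hv => h.keepLow k hk l h1 h2 hne _ (J_ne_zero s1 hv) (s2 v hv).le)
    (h.ker_pos _ hk l h1 h2)
  refine ⟨le_antisymm ?_ ?_, hu⟩
  · rintro _ ⟨v, rfl⟩
    simp only [CData.J, if_neg hne]
    exact ⟨_, rfl⟩
  · rintro _ ⟨v, rfl⟩
    refine ⟨(D.proj (k + 1) l ∘L D.J k l) v, ?_⟩
    simp only [CData.J, if_neg hne]
    exact congrArg (D.J k l) (inv_apply hu v)

theorem lowState : ∀ k ≤ D.K, LowState D lo M k := by
  intro k
  induction k with
  | zero => exact fun _ => h.lowState_zero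
  | succ k ih =>
    intro hk
    have hk' : k < D.K := hk
    specialize ih hk'.le
    have hcut : D.jf k < M → _ := fun hj => (h.cutHyp_low hk' ih hj).spec
    refine ⟨fun l h1 h2 => ?_, fun l h1 h2 => ?_⟩
    · rcases eq_or_ne l (D.jf k) with rfl | hne
      · have hj : D.jf k < M := (((h.jf_mem k hk').resolve_right (by omega))).2
        simp only [CData.J, if_pos]
        exact ⟨(hcut hj).1, (hcut hj).2.1⟩
      · obtain ⟨s1, s2⟩ := ih.1 l h1 h2
        obtain ⟨-, hu⟩ := h.W_step hk' ih h1 h2 hne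
        simp only [CData.J, if_neg hne]
        refine ⟨fun v => apply_inv hu v, fun v hv => ?_⟩
        have hv' : Ring.inverse (D.proj (k + 1) l ∘L D.J k l) v ≠ 0 := fun h0 => hv (by
          rw [← apply_inv hu v, h0, map_zero])
        exact h.keepLow k hk' l h1 h2 hne _ (J_ne_zero s1 hv') (s2 _ hv').le
    · rcases eq_or_ne l (D.jf k) with rfl | hne
      · rw [(h.W_step hk' ih (by omega) h2 (by omega)).1]
        refine le_trans (le_of_eq ?_) (hcut h2).2.2.2.1
        simp [CData.W, CData.J]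
      · rw [(h.W_step hk' ih h1 h2.le hne).1]
        rcases eq_or_ne (l + 1) (D.jf k) with hj | hj
        · have hjM : D.jf k < M := ((h.jf_mem k hk').resolve_right (by omega)).2
          have := (hcut hjM).2.2.1
          rw [← hj, Nat.add_sub_cancel] at this
          refine le_trans this (le_of_eq ?_)
          simp [CData.W, CData.J, hj]
        · rw [(h.W_step hk' ih (by omega) h2 hj).1]
          exact ih.2 l h1 h2

theorem finrank_W {k l : ℕ} (hk : k ≤ D.K) (h1 : lo ≤ l) (h2 : l ≤ M) :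
    finrank ℝ (D.W k l) = l := by
  rw [CData.W, LinearMap.finrank_range_of_inj
    (Function.LeftInverse.injective ((h.lowState k hk).1 l h1 h2).1), finrank_euclideanSpace_fin]

/-- The dual refinement at a loop meets the hypotheses of `cut`. -/
theorem cutHyp_high {k : ℕ} (hk : k < D.K)
    (ihl : ∀ l, lo ≤ l → l ≤ M → (∀ x, D.R (k + 1) l x = 0 → x ≠ 0 → 0 < qf (D.Q (k + 1) l) x) ∧
      ∀ v, D.R (k + 1) l (D.J (k + 1) l v) = v)
    (ihn : ∀ l, lo ≤ l → l < M → D.H (k + 1) (l + 1) ≤ D.H (k + 1) l) (hj : D.jf k < M) :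
    CutHyp (Ring.inverse (D.Q k (D.jf k))) (adjoint (D.J k (D.jf k)))
        (adjoint (D.R (k + 1) (D.jf k - 1))) (adjoint (D.R (k + 1) (D.jf k + 1))) ∧
      IsUnit (D.Q k (D.jf k)) := by
  have hL := h.lowState k hk.le
  have keep : ∀ l, lo ≤ l → l ≤ M → l ≠ D.jf k →
      ∀ x, D.R (k + 1) l x = 0 → x ≠ 0 → 0 < qf (D.Q k l) x := fun l h1 h2 hne x hx hx0 =>
    h.keepHigh k hk l h1 h2 hne x hx0 ((ihl l h1 h2).1 x hx hx0).le
  obtain ⟨hlo, -⟩ := (h.jf_mem k hk).resolve_right (by omega)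
  set j := D.jf k
  have hQ := h.symQ k hk.le j hlo.le hj.le
  have hπ := h.ker_pos k hk.le j hlo.le hj.le
  obtain ⟨s1, s2⟩ := hL.1 j hlo.le hj.le
  have hu : IsUnit (D.Q k j) := isUnit_form hQ hπ s1 s2
  obtain ⟨hp, rs⟩ := ihl (j - 1) (by omega) (by omega)
  obtain ⟨bp, rb⟩ := ihl (j + 1) (by omega) (by omega)
  set Qi := Ring.inverse (D.Q k j)
  set Rs := D.R (k + 1) (j - 1)
  set Rb := D.R (k + 1) (j + 1)
  have hsinj : ∀ v, (adjoint Rs) v = 0 → v = 0 := fun v hv => by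
    have h1 := adjoint_inner_left Rs (D.J (k + 1) (j - 1) v) v
    rw [hv, inner_zero_left, rs] at h1
    exact inner_self_eq_zero.1 h1.symm
  have hbinj : ∀ v, (adjoint Rb) v = 0 → v = 0 := fun v hv => by
    have h1 := adjoint_inner_left Rb (D.J (k + 1) (j + 1) v) v
    rw [hv, inner_zero_left, rb] at h1
    exact inner_self_eq_zero.1 h1.symm
  have hbhigh : ∀ x, Rb x = 0 → x ≠ 0 → 0 < qf (D.Q k j) x := fun x hx hx0 =>
    lt_of_lt_of_le (keep (j + 1) (by omega) (by omega) (by omega) x hx hx0)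
      (h.mono k hk.le j (j + 1) hlo.le (by omega) (by omega) x)
  refine ⟨⟨rfl, sym_inverse hu hQ, fun y hy hy0 => ?_, fun v hv => ?_,
    (injective_iff_map_eq_zero _).2 hbinj, ?_, ?_⟩, hu⟩
  · rw [qf_inverse hu]
    refine perp_pos hQ hπ s1 s2 (fun h0 => hy0 ?_) fun v => ?_
    · rw [← apply_inv hu y, h0, map_zero]
    · rw [← hQ, apply_inv hu, ← adjoint_inner_left, hy, inner_zero_left]
  · rw [qf_inverse hu]
    set y := (adjoint Rs) v
    have hy0 : y ≠ 0 := fun h0 => hv (hsinj v h0)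
    set z := Qi y
    have hz0 : z ≠ 0 := fun h0 => hy0 (by rw [← apply_inv hu y, show Qi y = 0 from h0, map_zero])
    set U := D.H (k + 1) (j - 1)
    have hU : finrank ℝ U + (j - 1) = M := by
      have h1 := LinearMap.finrank_range_add_finrank_ker (Rs : E →ₗ[ℝ] Co (j - 1))
      rw [LinearMap.range_eq_top.2 (Function.RightInverse.surjective (g := D.J (k + 1) (j - 1))
        rs), finrank_top, finrank_euclideanSpace_fin, h.hM] at h1
      change finrank ℝ (LinearMap.ker (Rs : E →ₗ[ℝ] Co (j - 1))) + (j - 1) = M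
      omega
    obtain ⟨V, hV, hVd, hVp⟩ := h.nestHigh k hk hj U hU fun x hx hx0 => hp x hx hx0
    by_contra hc
    push Not at hc
    have hzV : ∀ x ∈ V, ⟪z, D.Q k j x⟫ = 0 := fun x hx => by
      rw [← hQ, show z = Qi y from rfl, apply_inv hu, adjoint_inner_left,
        show Rs x = 0 from hV hx, inner_zero_right]
    have hdis : V ⊓ Submodule.span ℝ {z} = ⊥ := by
      refine (Submodule.eq_bot_iff _).2 fun x hx => ?_
      by_contra hx0
      obtain ⟨c, rfl⟩ := Submodule.mem_span_singleton.1 hx.2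
      have h1 := hzV _ hx.1
      have h2 := hVp _ hx.1 hx0
      rw [qf, real_inner_smul_left, h1, mul_zero] at h2
      exact lt_irrefl _ h2
    have hnn : ∀ x ∈ V ⊔ Submodule.span ℝ {z}, 0 ≤ qf (D.Q k j) x := by
      intro x hx
      obtain ⟨v', hv', w, hw, rfl⟩ := Submodule.mem_sup.1 hx
      obtain ⟨c, rfl⟩ := Submodule.mem_span_singleton.1 hw
      have h1 := qf_smul_add _ hQ 1 c v' z
      rw [one_smul, ← hQ, real_inner_comm, hzV v' hv'] at h1
      rcases eq_or_ne v' 0 with rfl | hv0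
      · simp only [zero_add] at h1 ⊢
        rw [h1]
        simp only [qf, inner_zero_left, mul_zero, zero_add]
        exact mul_nonneg (sq_nonneg c) hc
      · rw [h1]
        linarith [hVp v' hv' hv0, mul_nonneg (sq_nonneg c) hc]
    have hd := Submodule.finrank_sup_add_finrank_inf_eq V (Submodule.span ℝ {z})
    rw [hdis, finrank_bot, finrank_span_singleton hz0] at hd
    have hW := qf_neg_inter (W := D.W k j) (by
      rintro _ ⟨u, rfl⟩ hu0
      exact s2 u fun h0 => hu0 (by rw [h0]; exact map_zero _)) hnn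
    have hd2 := Submodule.finrank_sup_add_finrank_inf_eq (V ⊔ Submodule.span ℝ {z}) (D.W k j)
    rw [hW, finrank_bot, h.finrank_W hk.le hlo.le hj.le] at hd2
    have := Submodule.finrank_le ((V ⊔ Submodule.span ℝ {z}) ⊔ D.W k j)
    rw [h.hM] at this
    omega
  · rintro _ ⟨v, rfl⟩
    have e : ∀ x, Rs x = Rs (D.J (k + 1) (j + 1) (Rb x)) := fun x => by
      have h1 := ihn (j - 1) (by omega) (by omega)
      rw [show j - 1 + 1 = j by omega] at h1
      have h2 : x - D.J (k + 1) (j + 1) (Rb x) ∈ D.H (k + 1) (j + 1) := by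
        change Rb _ = 0
        rw [map_sub, rb, sub_self]
      have h3 : Rs (x - D.J (k + 1) (j + 1) (Rb x)) = 0 := h1 (ihn j hlo.le hj h2)
      rwa [map_sub, sub_eq_zero] at h3
    refine ⟨(adjoint (Rs ∘L D.J (k + 1) (j + 1))) v, ext_inner_right ℝ fun x => ?_⟩
    change ⟪(adjoint Rb) ((adjoint (Rs ∘L D.J (k + 1) (j + 1))) v), x⟫ = ⟪(adjoint Rs) v, x⟫
    rw [adjoint_inner_left, adjoint_inner_left, adjoint_inner_left, e x]
    rfl
  · have hG : IsUnit (Rb ∘L Qi ∘L (adjoint Rb)) := isUnit_of_ker fun v hv => by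
      by_contra hne
      have hy : (adjoint Rb) v ≠ 0 := fun h0 => hne (hbinj v h0)
      have h1 := hbhigh (Qi ((adjoint Rb) v)) hv fun h0 => hy (by
        rw [← apply_inv hu ((adjoint Rb) v), show Qi ((adjoint Rb) v) = 0 from h0, map_zero])
      have h2 : ⟪v, (Rb ∘L Qi ∘L (adjoint Rb)) v⟫ = 0 := by rw [hv, inner_zero_right]
      rw [qf, apply_inv hu] at h1
      simp only [comp_apply] at h2
      rw [← adjoint_inner_left, real_inner_comm] at h2
      exact h1.ne' h2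
    set T : Co j →L[ℝ] E := (adjoint Rb) ∘L Ring.inverse (Rb ∘L Qi ∘L (adjoint Rb)) ∘L Rb ∘L D.J k j
    have hTneg : ∀ v, v ≠ 0 → qf Qi (T v) < 0 := by
      intro v hv
      set w := D.J k j v
      set n := Qi (T v)
      have hn : Rb n = Rb w := apply_inv hG (Rb w)
      have horth : ⟪w - n, D.Q k j n⟫ = 0 := by
        rw [show D.Q k j n = T v from apply_inv hu (T v), show T v =
          (adjoint Rb) (Ring.inverse (Rb ∘L Qi ∘L (adjoint Rb)) (Rb w)) from rfl, adjoint_inner_right, map_sub,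
          hn, sub_self, inner_zero_left]
      have he := qf_smul_add _ hQ 1 1 (w - n) n
      rw [one_smul, one_smul, sub_add_cancel, horth] at he
      have hwneg : qf (D.Q k j) w < 0 := s2 v hv
      rw [qf_inverse hu]
      change qf (D.Q k j) n < 0
      rcases eq_or_ne (w - n) 0 with h0 | h0
      · rwa [← sub_eq_zero.1 h0]
      · linarith [hbhigh (w - n) (by rw [map_sub, hn, sub_self]) h0]
    refine ⟨LinearMap.range (T : Co j →ₗ[ℝ] E), ?_, ?_, ?_⟩
    · rintro _ ⟨v, rfl⟩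
      exact ⟨_, rfl⟩
    · rw [LinearMap.finrank_range_of_inj ((injective_iff_map_eq_zero _).2 fun v hv => ?_),
        finrank_euclideanSpace_fin]
      by_contra hne
      have h1 := hTneg v hne
      rw [show T v = 0 from hv, qf, inner_zero_left] at h1
      exact lt_irrefl _ h1
    · rintro _ ⟨v, rfl⟩ hx0
      exact hTneg v fun h0 => hx0 (by rw [h0]; exact map_zero _)

/-- The state of the high planes at a checkpoint. -/
theorem highState : ∀ i k, k + i = D.K →
    (∀ l, lo ≤ l → l ≤ M → (∀ x, D.R k l x = 0 → x ≠ 0 → 0 < qf (D.Q k l) x) ∧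
      ∀ v, D.R k l (D.J k l v) = v) ∧
    ∀ l, lo ≤ l → l < M → D.H k (l + 1) ≤ D.H k l := by
  intro i
  induction i with
  | zero =>
    intro k hk
    obtain rfl : k = D.K := by omega
    rw [funext D.R_last]
    refine ⟨fun l h1 h2 => ⟨h.ker_pos _ le_rfl l h1 h2, ((h.lowState _ le_rfl).1 l h1 h2).1⟩, ?_⟩
    intro l h1 h2 x hx
    have hx' : D.proj D.K (l + 1) x = 0 := by
      simpa [CData.H, D.R_last] using hx
    simpa [CData.H, D.R_last] using h.term_nest l h1 h2 x hx'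
  | succ i ih =>
    intro k hki
    have hk : k < D.K := by omega
    obtain ⟨ihl, ihn⟩ := ih (k + 1) (by omega)
    have hL := h.lowState k hk.le
    have keep : ∀ l, lo ≤ l → l ≤ M → l ≠ D.jf k →
        ∀ x, D.R (k + 1) l x = 0 → x ≠ 0 → 0 < qf (D.Q k l) x := fun l h1 h2 hne x hx hx0 =>
      h.keepHigh k hk l h1 h2 hne x hx0 ((ihl l h1 h2).1 x hx hx0).le
    have hren : ∀ l, lo ≤ l → l ≤ M → l ≠ D.jf k → IsUnit (D.R (k + 1) l ∘L D.J k l) :=
      fun l h1 h2 hne => isUnit_renorm (hL.1 l h1 h2).2 (keep l h1 h2 hne)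
    have hker : ∀ l, lo ≤ l → l ≤ M → l ≠ D.jf k → D.H k l = D.H (k + 1) l := by
      intro l h1 h2 hne
      ext x
      simp only [CData.H, LinearMap.mem_ker, ContinuousLinearMap.coe_coe, D.R_step hk,
        if_neg hne, comp_apply]
      refine ⟨fun hx => ?_, fun hx => by rw [hx, map_zero]⟩
      rw [← apply_inv (hren l h1 h2 hne) (D.R (k + 1) l x), hx, map_zero]
    have hcut := h.cutHyp_high hk ihl ihn
    refine ⟨fun l h1 h2 => ?_, fun l h1 h2 => ?_⟩
    · rw [D.R_step hk]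
      rcases eq_or_ne l (D.jf k) with rfl | hne
      · have hj : D.jf k < M := ((h.jf_mem k hk).resolve_right (by omega)).2
        obtain ⟨hc, hu⟩ := hcut hj
        obtain ⟨c1, c2, -, -, -⟩ := hc.spec
        rw [if_pos rfl]
        refine ⟨fun x hx hx0 => ?_, fun v => ?_⟩
        · have hQx : D.Q k (D.jf k) x ≠ 0 := fun h0 => hx0 (by
            rw [← inv_apply hu x, h0, map_zero])
          have h3 := perp_pos hc.symQ hc.ker_pos c1 c2 hQx fun v => by
            rw [← hc.symQ, inv_apply hu, ← adjoint_inner_left, hx, inner_zero_left]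
          rwa [qf_inverse hu, inv_apply hu] at h3
        · refine ext_inner_right ℝ fun w => ?_
          rw [adjoint_inner_left, ← adjoint_inner_right, c1]
      · rw [if_neg hne]
        refine ⟨fun x hx hx0 => keep l h1 h2 hne x ?_ hx0, fun v => inv_apply (hren l h1 h2 hne) v⟩
        rw [← apply_inv (hren l h1 h2 hne) (D.R (k + 1) l x)]
        simp only [comp_apply] at hx
        rw [hx, map_zero]
    · rcases eq_or_ne l (D.jf k) with rfl | hne
      · rw [hker (D.jf k + 1) (by omega) h2 (by omega)]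
        intro x hx
        obtain ⟨hc, -⟩ := hcut h2
        change D.R k (D.jf k) x = 0
        rw [D.R_step hk, if_pos rfl]
        refine ext_inner_right ℝ fun v => ?_
        obtain ⟨u, hu'⟩ := hc.spec.2.2.2.1 ⟨v, rfl⟩
        rw [adjoint_inner_left, inner_zero_left]
        change (adjoint (D.R (k + 1) (D.jf k + 1))) u = cut _ _ _ _ v at hu'
        rw [← hu', adjoint_inner_right, show D.R (k + 1) (D.jf k + 1) x = 0 from hx,
          inner_zero_left]
      · rw [hker l h1 h2.le hne]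
        rcases eq_or_ne (l + 1) (D.jf k) with hj | hj
        · have hjM : D.jf k < M := ((h.jf_mem k hk).resolve_right (by omega)).2
          obtain ⟨hc, -⟩ := hcut hjM
          intro x hx
          have hx' : D.R k (D.jf k) x = 0 := by rw [← hj]; exact hx
          rw [D.R_step hk, if_pos rfl] at hx'
          rw [show l = D.jf k - 1 by omega]
          change D.R (k + 1) (D.jf k - 1) x = 0
          refine ext_inner_right ℝ fun v => ?_
          obtain ⟨u, hu'⟩ := hc.spec.2.2.1 ⟨v, rfl⟩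
          change cut _ _ _ _ u = (adjoint (D.R (k + 1) (D.jf k - 1))) v at hu'
          rw [inner_zero_left, ← adjoint_inner_right, ← hu', ← adjoint_inner_left, hx',
            inner_zero_left]
        · rw [hker (l + 1) (by omega) h2 hj]
          exact ihn l h1 h2

/-- A vanishing equation makes the low plane before the loop meet the high plane after it. -/
theorem meet_of_eqn_zero {k : ℕ} (hk : k < D.K) (hj : D.jf k < M) (h0 : D.eqn k = 0) :
    D.W k (D.jf k) ⊓ D.H (k + 1) (D.jf k) ≠ ⊥ := by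
  obtain ⟨hlo, -⟩ := (h.jf_mem k hk).resolve_right (by omega)
  obtain ⟨v, hv, hv0⟩ : ∃ v, (D.R (k + 1) (D.jf k) ∘L D.J k (D.jf k)) v = 0 ∧ v ≠ 0 := by
    by_contra hcon
    push Not at hcon
    obtain ⟨u, hu⟩ := isUnit_of_ker hcon
    have hd : (u : Co (D.jf k) →L[ℝ] Co (D.jf k)).det ≠ 0 := by
      have := (u.map (LinearMap.det.comp
        (ContinuousLinearMap.toLinearMapRingHom.toMonoidHom))).ne_zero
      simpa [ContinuousLinearMap.det] using this
    rw [hu] at hd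
    exact hd h0
  exact (Submodule.ne_bot_iff _).2 ⟨_, ⟨⟨v, rfl⟩, hv⟩,
    J_ne_zero ((h.lowState k hk.le).1 _ hlo.le hj.le).1 hv0⟩

/-- On a face the equation has the sign of the orientation. -/
theorem eqn_sign {k : ℕ} (hk : k < D.K) (hj : D.jf k < M) {σ : ℝ}
    (hkeep : ∀ x, x ≠ 0 → qf (D.Q k (D.jf k)) x ≤ 0 → qf (D.Q (k + 1) (D.jf k)) x < 0)
    (hor : ∀ J : Co (D.jf k) →L[ℝ] E, (∀ v, D.proj k (D.jf k) (J v) = v) →
      (∀ v, v ≠ 0 → qf (D.Q k (D.jf k)) (J v) < 0) →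
      0 < σ * (D.proj (k + 1) (D.jf k) ∘L J).det) :
    0 < σ * D.eqn k := by
  obtain ⟨hlo, -⟩ := (h.jf_mem k hk).resolve_right (by omega)
  set j := D.jf k
  obtain ⟨a1, a2⟩ := (h.lowState k hk.le).1 j hlo.le hj.le
  obtain ⟨b1, b2⟩ := (h.lowState (k + 1) hk).1 j hlo.le hj.le
  obtain ⟨r1, r2⟩ := (h.highState (D.K - (k + 1)) (k + 1) (by omega)).1 j hlo.le hj.le
  set P := D.proj (k + 1) j
  set R := D.R (k + 1) j
  set Jp := D.J (k + 1) j
  set Jm := D.J k j
  set Q := D.Q (k + 1) j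
  have hmneg : ∀ v, v ≠ 0 → qf Q (Jm v) < 0 := fun v hv => hkeep _ (J_ne_zero a1 hv) (a2 v hv).le
  set Jt : ℝ → Co j →L[ℝ] E := fun θ => Jp ∘L R ∘L Jm + θ • (Jm - Jp ∘L R ∘L Jm)
  have hne : ∀ θ ∈ Set.Icc (0 : ℝ) 1, (P ∘L Jt θ).det ≠ 0 := by
    intro θ hθ
    have hu : IsUnit (P ∘L Jt θ) := isUnit_renorm (Q := Q) (fun v hv => ?_)
      (h.ker_pos _ hk j hlo.le hj.le)
    · obtain ⟨u, hu⟩ := hu
      rw [← hu]
      have := (u.map (LinearMap.det.comp
        (ContinuousLinearMap.toLinearMapRingHom.toMonoidHom))).ne_zero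
      simpa [ContinuousLinearMap.det] using this
    · set w := Jp (R (Jm v))
      set g := Jm v - w
      have hR : R g = 0 := by rw [map_sub, r2, sub_self]
      have hRv : R (Jm v) ≠ 0 := fun h0 =>
        lt_asymm (hmneg v hv) (r1 _ h0 (J_ne_zero a1 hv))
      have hg : 0 ≤ qf Q g := by
        rcases eq_or_ne g 0 with h0 | h0
        · simp [h0, qf]
        · exact (r1 g hR h0).le
      have hsym := h.symQ (k + 1) hk j hlo.le hj.le
      have hw : qf Q w < 0 := b2 _ hRv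
      have e1 := qf_smul_add Q hsym 1 θ w g
      have e2 := qf_smul_add Q hsym 1 1 w g
      rw [one_smul] at e1 e2
      rw [one_smul, add_sub_cancel] at e2
      have hval : Jt θ v = w + θ • g := rfl
      rw [hval]
      have hm := hmneg v hv
      obtain ⟨t0, t1⟩ := hθ
      have h5 := mul_nonneg (mul_nonneg t0 (by linarith : 0 ≤ 1 - θ)) hg
      rcases t1.eq_or_lt with rfl | t1'
      · linarith
      · have h6 : (1 - θ) * qf Q w < 0 := mul_neg_of_pos_of_neg (by linarith) hw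
        have h7 : θ * qf Q (Jm v) ≤ 0 := mul_nonpos_of_nonneg_of_nonpos t0 hm.le
        nlinarith
  have hc : ContinuousOn (fun θ => (P ∘L Jt θ).det) (Set.Icc 0 1) :=
    (ContinuousLinearMap.continuous_det.comp (continuous_const.clm_comp
      (continuous_const.add (continuous_id.smul continuous_const)))).continuousOn
  have e0 : (P ∘L Jt 0).det = D.eqn k := by
    have : P ∘L Jt 0 = R ∘L Jm := by
      refine ContinuousLinearMap.ext fun v => ?_
      simp [Jt, P, Jp, b1]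
    rw [this]
    rfl
  have e1 : Jt 1 = Jm := by simp [Jt]
  have hend : 0 < σ * (P ∘L Jt 1).det := by rw [e1]; exact hor Jm a1 a2
  rw [← e0]
  by_contra hcon
  push Not at hcon
  obtain ⟨θ, hθ, hz⟩ := intermediate_value_Icc zero_le_one (continuousOn_const.mul hc)
    (show (0 : ℝ) ∈ Set.Icc (σ * (P ∘L Jt 0).det) (σ * (P ∘L Jt 1).det) from ⟨hcon, hend.le⟩)
  rcases mul_eq_zero.1 hz with hσ | hd
  · rw [show σ = 0 from hσ, zero_mul] at hend; exact lt_irrefl _ hend
  · exact hne θ hθ hd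

end IsChain

end

end Vale.Agent.P225.Disproof.Mix
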