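import Mathlib.Analysis.InnerProductSpace.Adjoint
import Mathlib.Analysis.InnerProductSpace.PiL2
import Mathlib.Analysis.Normed.Module.FiniteDimension

/-!
# P225: continuous refinement of low planes

For a symmetric operator `Q`, a nested pair of planes `Js ≤ Jb` of dimensions `≤ n` and `n + 1` and a
coordinate map `π` with high kernel, `cut` is a low plane of dimension `n` between them. It is
given by a formula, hence continuous in all its arguments, and normalised by `π ∘ cut = 1`.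
-/

namespace Vale.Agent.P225.Disproof.Mix

open scoped RealInnerProductSpace
open ContinuousLinearMap Module

noncomputable section

/-- Coordinates. -/
abbrev Co (n : ℕ) : Type := EuclideanSpace ℝ (Fin n)

variable {X Y Z : Type*} [NormedAddCommGroup X] [InnerProductSpace ℝ X] [FiniteDimensional ℝ X]
  [NormedAddCommGroup Y] [InnerProductSpace ℝ Y] [FiniteDimensional ℝ Y]
  [NormedAddCommGroup Z] [InnerProductSpace ℝ Z] [FiniteDimensional ℝ Z]

theorem isUnit_of_ker {T : X →L[ℝ] X} (h : ∀ x, T x = 0 → x = 0) : IsUnit T := by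
  rw [ContinuousLinearMap.isUnit_iff_bijective]
  have hi : Function.Injective T := (injective_iff_map_eq_zero T).2 h
  exact ⟨hi, (LinearMap.injective_iff_surjective (f := (T : X →ₗ[ℝ] X))).1 hi⟩

theorem inv_apply {T : X →L[ℝ] X} (h : IsUnit T) (x : X) : Ring.inverse T (T x) = x := by
  simpa using DFunLike.congr_fun (Ring.inverse_mul_cancel T h) x

theorem apply_inv {T : X →L[ℝ] X} (h : IsUnit T) (x : X) : T (Ring.inverse T x) = x := by
  simpa using DFunLike.congr_fun (Ring.mul_inverse_cancel T h) x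

/-- The right inverse of `A` with values in the kernel of `C`. -/
def normFrame (A : X →L[ℝ] Y) (C : X →L[ℝ] Z) : Y →L[ℝ] X :=
  Ring.inverse ((adjoint A) ∘L A + (adjoint C) ∘L C) ∘L (adjoint A)

theorem normFrame_spec {A : X →L[ℝ] Y} {C : X →L[ℝ] Z} (h0 : ∀ x, A x = 0 → C x = 0 → x = 0)
    (hex : ∀ y, ∃ x, A x = y ∧ C x = 0) :
    (∀ y, A (normFrame A C y) = y) ∧ (∀ y, C (normFrame A C y) = 0) ∧
      (∀ x, C x = 0 → normFrame A C (A x) = x) ∧ IsUnit ((adjoint A) ∘L A + (adjoint C) ∘L C) := by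
  have hu : IsUnit ((adjoint A) ∘L A + (adjoint C) ∘L C) := isUnit_of_ker fun x hx => by
    have h := congrArg (fun y => ⟪x, y⟫) hx
    simp only [add_apply, comp_apply, inner_add_right, adjoint_inner_right, inner_zero_right,
      real_inner_self_eq_norm_sq] at h
    have h1 : ‖A x‖ = 0 := by nlinarith [sq_nonneg ‖C x‖, sq_nonneg ‖A x‖, norm_nonneg (A x)]
    have h2 : ‖C x‖ = 0 := by nlinarith [sq_nonneg ‖C x‖, sq_nonneg ‖A x‖, norm_nonneg (C x)]
    exact h0 x (norm_eq_zero.1 h1) (norm_eq_zero.1 h2)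
  have key : ∀ x, C x = 0 → normFrame A C (A x) = x := fun x hx => by
    have h : ((adjoint A) ∘L A + (adjoint C) ∘L C) x = (adjoint A) (A x) := by simp [hx]
    rw [normFrame, comp_apply, ← h, inv_apply hu]
  refine ⟨fun y => ?_, fun y => ?_, key, hu⟩
  · obtain ⟨x, rfl, hx⟩ := hex y; rw [key x hx]
  · obtain ⟨x, rfl, hx⟩ := hex y; rw [key x hx, hx]

theorem contAt_inverse {ι : Type*} [TopologicalSpace ι] {T : ι → X →L[ℝ] X} {s : Set ι} {i : ι}
    (hT : ContinuousWithinAt T s i) (hu : IsUnit (T i)) :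
    ContinuousWithinAt (fun j => Ring.inverse (T j)) s i := by
  have : CompleteSpace (X →L[ℝ] X) := FiniteDimensional.complete ℝ _
  obtain ⟨u, hu⟩ := hu
  exact (hu ▸ NormedRing.inverse_continuousAt u).comp_continuousWithinAt hT

theorem contAt_adjoint {ι : Type*} [TopologicalSpace ι] {T : ι → X →L[ℝ] Y} {s : Set ι} {i : ι}
    (hT : ContinuousWithinAt T s i) : ContinuousWithinAt (fun j => (adjoint (T j))) s i :=
  (ContinuousLinearMap.adjoint.continuous).continuousAt.comp_continuousWithinAt hT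

theorem contAt_normFrame {ι : Type*} [TopologicalSpace ι] {A : ι → X →L[ℝ] Y}
    {C : ι → X →L[ℝ] Z} {s : Set ι} {i : ι} (hA : ContinuousWithinAt A s i)
    (hC : ContinuousWithinAt C s i) (hu : IsUnit ((adjoint (A i)) ∘L A i + (adjoint (C i)) ∘L C i)) :
    ContinuousWithinAt (fun j => normFrame (A j) (C j)) s i :=
  (contAt_inverse (((contAt_adjoint hA).clm_comp hA).add ((contAt_adjoint hC).clm_comp hC))
    hu).clm_comp (contAt_adjoint hA)

variable {E : Type*} [NormedAddCommGroup E] [InnerProductSpace ℝ E] [FiniteDimensional ℝ E]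

/-- The quadratic form of an operator. -/
def qf (Q : E →L[ℝ] E) (x : E) : ℝ := ⟪x, Q x⟫

theorem qf_smul_add (Q : E →L[ℝ] E) (hQ : ∀ x y : E, ⟪Q x, y⟫ = ⟪x, Q y⟫) (α β : ℝ) (x y : E) :
    qf Q (α • x + β • y) = α ^ 2 * qf Q x + 2 * α * β * ⟪x, Q y⟫ + β ^ 2 * qf Q y := by
  have e : ⟪y, Q x⟫ = ⟪x, Q y⟫ := by rw [← hQ, real_inner_comm]
  simp only [qf, map_add, map_smul, inner_add_left, inner_add_right, real_inner_smul_left,
    real_inner_smul_right, e]
  ring

theorem qf_neg_inter {Q : E →L[ℝ] E} {P W : Submodule ℝ E} (hW : ∀ x ∈ W, x ≠ 0 → qf Q x < 0)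
    (hP : ∀ x ∈ P, 0 ≤ qf Q x) : P ⊓ W = ⊥ := by
  refine (Submodule.eq_bot_iff _).2 fun x hx => ?_
  by_contra h
  exact not_lt.2 (hP x hx.1) (hW x hx.2 h)

variable {a b n : ℕ}

/-- The projection onto the kernel of a surjective map. -/
def kerProj (A : X →L[ℝ] Y) : X →L[ℝ] X :=
  .id ℝ X - (adjoint A) ∘L Ring.inverse (A ∘L (adjoint A)) ∘L A

/-- The `Q`-orthogonal projection away from the range of `Js`. -/
def away (Q : E →L[ℝ] E) (Js : Co a →L[ℝ] E) : E →L[ℝ] E :=
  .id ℝ E - Js ∘L Ring.inverse ((adjoint Js) ∘L Q ∘L Js) ∘L (adjoint Js) ∘L Q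

/-- The functional cutting `Jb` down. -/
def cutter (Q : E →L[ℝ] E) (π : E →L[ℝ] Co n) (Js : Co a →L[ℝ] E) (Jb : Co b →L[ℝ] E) :
    Co b →L[ℝ] Co b :=
  (adjoint (away Q Js ∘L Jb ∘L kerProj (π ∘L Jb))) ∘L Q ∘L Jb

/-- The normalised low plane between `Js` and `Jb`. -/
def cut (Q : E →L[ℝ] E) (π : E →L[ℝ] Co n) (Js : Co a →L[ℝ] E) (Jb : Co b →L[ℝ] E) :
    Co n →L[ℝ] E :=
  Jb ∘L normFrame (π ∘L Jb) (cutter Q π Js Jb)

/-- The hypotheses of `cut`. -/
structure CutHyp (Q : E →L[ℝ] E) (π : E →L[ℝ] Co n) (Js : Co a →L[ℝ] E) (Jb : Co b →L[ℝ] E) :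
    Prop where
  dim : b = n + 1
  symQ : ∀ x y : E, ⟪Q x, y⟫ = ⟪x, Q y⟫
  ker_pos : ∀ x, π x = 0 → x ≠ 0 → 0 < qf Q x
  small_neg : ∀ v, v ≠ 0 → qf Q (Js v) < 0
  big_inj : Function.Injective Jb
  small_le : LinearMap.range (Js : Co a →ₗ[ℝ] E) ≤ LinearMap.range (Jb : Co b →ₗ[ℝ] E)
  index : ∃ V : Submodule ℝ E, V ≤ LinearMap.range (Jb : Co b →ₗ[ℝ] E) ∧ finrank ℝ V = n ∧
    ∀ x ∈ V, x ≠ 0 → qf Q x < 0

namespace CutHyp

variable {Q : E →L[ℝ] E} {π : E →L[ℝ] Co n} {Js : Co a →L[ℝ] E} {Jb : Co b →L[ℝ] E}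
  (h : CutHyp Q π Js Jb)
include h

theorem surj : Function.Surjective (π ∘L Jb) := by
  obtain ⟨V, hV, hVn, hVneg⟩ := h.index
  have hinj : Function.Injective ((π : E →ₗ[ℝ] Co n).comp V.subtype) := by
    refine (injective_iff_map_eq_zero _).2 fun x hx => ?_
    by_contra hne
    have hne' : (x : E) ≠ 0 := fun hh => hne (Subtype.ext hh)
    exact lt_asymm (h.ker_pos x hx hne') (hVneg x x.2 hne')
  have hsurj := (LinearMap.injective_iff_surjective_of_finrank_eq_finrank
    (by rw [hVn, finrank_euclideanSpace_fin])).1 hinj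
  intro y
  obtain ⟨x, hx⟩ := hsurj y
  obtain ⟨v, hv⟩ := hV x.2
  exact ⟨v, by simpa [show Jb v = (x : E) from hv] using hx⟩

theorem unitA : IsUnit ((π ∘L Jb) ∘L (adjoint (π ∘L Jb))) := isUnit_of_ker fun y hy => by
  obtain ⟨x, hx⟩ := h.surj y
  have h1 := congrArg (fun z => ⟪y, z⟫) hy
  simp only [comp_apply, inner_zero_right] at h1
  rw [show π (Jb ((adjoint (π ∘L Jb)) y)) = (π ∘L Jb) ((adjoint (π ∘L Jb)) y) from rfl,
    ← adjoint_inner_left, inner_self_eq_zero] at h1
  have h2 : ⟪(adjoint (π ∘L Jb)) y, x⟫ = ⟪y, y⟫ := by rw [adjoint_inner_left, hx]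
  rw [h1, inner_zero_left] at h2
  exact inner_self_eq_zero.1 h2.symm

theorem unitG : IsUnit ((adjoint Js) ∘L Q ∘L Js) := isUnit_of_ker fun v hv => by
  by_contra hne
  have h1 := congrArg (fun z => ⟪v, z⟫) hv
  simp only [comp_apply, inner_zero_right, adjoint_inner_right] at h1
  exact (h.small_neg v hne).ne h1

theorem spec : (∀ v, π (cut Q π Js Jb v) = v) ∧ (∀ v, v ≠ 0 → qf Q (cut Q π Js Jb v) < 0) ∧
    LinearMap.range (Js : Co a →ₗ[ℝ] E) ≤ LinearMap.range (cut Q π Js Jb : Co n →ₗ[ℝ] E) ∧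
    LinearMap.range (cut Q π Js Jb : Co n →ₗ[ℝ] E) ≤ LinearMap.range (Jb : Co b →ₗ[ℝ] E) ∧
    IsUnit ((adjoint (π ∘L Jb)) ∘L (π ∘L Jb) + (adjoint (cutter Q π Js Jb)) ∘L cutter Q π Js Jb) := by
  set A := π ∘L Jb with hA
  set C := cutter Q π Js Jb with hC
  -- the kernel line
  have hAker : ∃ k : Co b, k ≠ 0 ∧ A k = 0 := by
    by_contra hcon
    push Not at hcon
    have hinj : Function.Injective (A : Co b →ₗ[ℝ] Co n) :=
      (injective_iff_map_eq_zero _).2 fun x hx => by_contra fun hne => hcon x hne hx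
    have := LinearMap.finrank_le_finrank_of_injective hinj
    rw [finrank_euclideanSpace_fin, finrank_euclideanSpace_fin, h.dim] at this
    omega
  obtain ⟨k, hk0, hk⟩ := hAker
  have hline : ∀ z : Co b, A z = 0 → ∃ c : ℝ, z = c • k := by
    intro z hz
    have hr : finrank ℝ (LinearMap.range (A : Co b →ₗ[ℝ] Co n)) = n := by
      rw [LinearMap.range_eq_top.2 h.surj, finrank_top, finrank_euclideanSpace_fin]
    have h1 := LinearMap.finrank_range_add_finrank_ker (A : Co b →ₗ[ℝ] Co n)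
    rw [hr, finrank_euclideanSpace_fin] at h1
    have hd := h.dim
    have h2 : finrank ℝ (LinearMap.ker (A : Co b →ₗ[ℝ] Co n)) = 1 := by omega
    obtain ⟨c, hc⟩ := exists_smul_eq_of_finrank_eq_one h2
      (x := ⟨k, hk⟩) (fun hh => hk0 (congrArg Subtype.val hh)) ⟨z, hz⟩
    exact ⟨c, (congrArg Subtype.val hc).symm⟩
  have hproj : ∀ z, A (kerProj A z) = 0 := fun z => by
    simp only [kerProj, sub_apply, id_apply, comp_apply, map_sub]
    rw [show A ((adjoint A) (Ring.inverse (A ∘L (adjoint A)) (A z))) =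
      (A ∘L (adjoint A)) (Ring.inverse (A ∘L (adjoint A)) (A z)) from rfl, apply_inv h.unitA, sub_self]
  have hprojk : kerProj A k = k := by simp [kerProj, hk]
  set p := away Q Js (Jb k) with hp
  -- `p` is positive and orthogonal to the small plane
  have hporth : ∀ v, ⟪Js v, Q p⟫ = 0 := fun v => by
    rw [← adjoint_inner_right, hp, away]
    simp only [sub_apply, id_apply, comp_apply, map_sub]
    rw [show (adjoint Js) (Q (Js (Ring.inverse ((adjoint Js) ∘L Q ∘L Js) ((adjoint Js) (Q (Jb k)))))) =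
      ((adjoint Js) ∘L Q ∘L Js) (Ring.inverse ((adjoint Js) ∘L Q ∘L Js) ((adjoint Js) (Q (Jb k)))) from rfl,
      apply_inv h.unitG, sub_self, inner_zero_right]
  have hpb : p ∈ LinearMap.range (Jb : Co b →ₗ[ℝ] E) := by
    rw [hp, away]
    simp only [sub_apply, id_apply, comp_apply]
    exact Submodule.sub_mem _ ⟨k, rfl⟩ (h.small_le ⟨_, rfl⟩)
  have hppos : 0 < qf Q p := by
    obtain ⟨v, hv⟩ : ∃ v, Jb k = p + Js v :=
      ⟨_, (sub_add_cancel (Jb k) (Js (Ring.inverse ((adjoint Js) ∘L Q ∘L Js) ((adjoint Js) (Q (Jb k)))))).symm⟩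
    have h1 : 0 < qf Q (Jb k) :=
      h.ker_pos _ hk fun hh => hk0 (h.big_inj (by rw [hh, map_zero]))
    have h2 := qf_smul_add Q h.symQ 1 1 p (Js v)
    rw [one_smul, one_smul, ← hv, ← h.symQ, real_inner_comm, hporth v] at h2
    rcases eq_or_ne v 0 with rfl | hne
    · simpa [hv] using h1
    · linarith [h.small_neg v hne]
  have hker : ∀ x, C x = 0 ↔ ⟪Jb x, Q p⟫ = 0 := by
    intro x
    have e : ∀ z, ⟪z, C x⟫ = ⟪away Q Js (Jb (kerProj A z)), Q (Jb x)⟫ := fun z => by
      rw [hC, cutter, comp_apply, comp_apply, adjoint_inner_right]; rfl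
    constructor
    · intro hx
      have := e k
      rw [hx, inner_zero_right, hprojk, ← hp, ← h.symQ, real_inner_comm] at this
      exact this.symm
    · intro hx
      refine ext_inner_left ℝ fun z => ?_
      obtain ⟨c, hc⟩ := hline _ (hproj z)
      rw [e z, hc, map_smul, map_smul, ← hp, real_inner_smul_left, ← h.symQ, real_inner_comm, hx,
        mul_zero, inner_zero_right]
  -- the kernel of the functional is negative
  have hneg : ∀ x, C x = 0 → Jb x ≠ 0 → qf Q (Jb x) < 0 := by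
    intro x hx hne
    have hxp := (hker x).1 hx
    by_contra hge
    push Not at hge
    obtain ⟨V, hV, hVn, hVneg⟩ := h.index
    set P : Submodule ℝ E := Submodule.span ℝ {Jb x, p}
    have hP : ∀ y ∈ P, 0 ≤ qf Q y := by
      intro y hy
      obtain ⟨α, β, rfl⟩ := Submodule.mem_span_pair.1 hy
      rw [qf_smul_add Q h.symQ, hxp]
      nlinarith [mul_nonneg (sq_nonneg α) hge, mul_nonneg (sq_nonneg β) hppos.le]
    have hli : LinearIndependent ℝ ![Jb x, p] := by
      rw [LinearIndependent.pair_iff]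
      intro α β hs
      have h1 := congrArg (fun y => ⟪y, Q p⟫) hs
      simp only [inner_add_left, real_inner_smul_left, hxp, mul_zero, zero_add,
        inner_zero_left] at h1
      have hβ : β = 0 := (mul_eq_zero.1 h1).resolve_right hppos.ne'
      subst hβ
      simp only [zero_smul, add_zero, smul_eq_zero] at hs
      exact ⟨hs.resolve_right hne, rfl⟩
    have hP2 : finrank ℝ P = 2 := by
      have := finrank_span_eq_card hli
      have e : Set.range ![Jb x, p] = {Jb x, p} := by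
        ext y; simp [or_comm]
      rw [e] at this
      exact this.trans (Fintype.card_fin 2)
    have hsup : P ⊔ V ≤ LinearMap.range (Jb : Co b →ₗ[ℝ] E) :=
      sup_le (Submodule.span_le.2 fun y hy => by
        rcases hy with rfl | hy
        · exact ⟨x, rfl⟩
        · exact (Set.mem_singleton_iff.1 hy) ▸ hpb) hV
    have h1 := Submodule.finrank_sup_add_finrank_inf_eq P V
    rw [qf_neg_inter hVneg hP, finrank_bot, hP2, hVn] at h1
    have h2 := Submodule.finrank_mono hsup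
    rw [LinearMap.finrank_range_of_inj h.big_inj, finrank_euclideanSpace_fin, h.dim] at h2
    omega
  have h0 : ∀ x, A x = 0 → C x = 0 → x = 0 := fun x hx hx' => by
    by_contra hne
    have hb : Jb x ≠ 0 := fun hh => hne (h.big_inj (by rw [hh, map_zero]))
    exact lt_asymm (h.ker_pos _ hx hb) (hneg x hx' hb)
  have hex : ∀ y, ∃ x, A x = y ∧ C x = 0 := fun y => by
    obtain ⟨x, hx⟩ := h.surj y
    refine ⟨x - (⟪Jb x, Q p⟫ / ⟪Jb k, Q p⟫) • k, ?_, ?_⟩
    · rw [map_sub, map_smul, hk, smul_zero, sub_zero]; exact hx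
    · rw [hker]
      have hne : ⟪Jb k, Q p⟫ ≠ 0 := fun hh => hk0 (h0 k hk ((hker k).2 hh))
      simp only [map_sub, map_smul, inner_sub_left, real_inner_smul_left]
      field_simp
      ring
  obtain ⟨s1, s2, s3, s4⟩ := normFrame_spec h0 hex
  refine ⟨fun v => s1 v, fun v hv => hneg _ (s2 v) fun hh => hv ?_, ?_, ?_, s4⟩
  · have := s1 v
    have h3 : normFrame A C v = 0 := h.big_inj (hh.trans (map_zero Jb).symm)
    rw [h3, map_zero] at this
    exact this.symm
  · rintro _ ⟨v, rfl⟩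
    obtain ⟨x, hx⟩ := h.small_le (LinearMap.mem_range_self _ v)
    change Jb x = Js v at hx
    refine ⟨A x, ?_⟩
    change Jb (normFrame A C (A x)) = Js v
    rw [s3 x ((hker x).2 (by rw [hx, hporth])), hx]
  · rintro _ ⟨v, rfl⟩
    exact ⟨_, rfl⟩

end CutHyp

theorem contAt_cut {ι : Type*} [TopologicalSpace ι] {Q : ι → E →L[ℝ] E} {π : ι → E →L[ℝ] Co n}
    {Js : ι → Co a →L[ℝ] E} {Jb : ι → Co b →L[ℝ] E} {s : Set ι} {i : ι}
    (hQ : ContinuousWithinAt Q s i) (hπ : ContinuousWithinAt π s i)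
    (hs : ContinuousWithinAt Js s i) (hb : ContinuousWithinAt Jb s i)
    (h : CutHyp (Q i) (π i) (Js i) (Jb i)) :
    ContinuousWithinAt (fun j => cut (Q j) (π j) (Js j) (Jb j)) s i := by
  have hA := hπ.clm_comp hb
  have hK : ContinuousWithinAt (fun j => kerProj (π j ∘L Jb j)) s i :=
    continuousWithinAt_const.sub ((contAt_adjoint hA).clm_comp
      ((contAt_inverse (hA.clm_comp (contAt_adjoint hA)) h.unitA).clm_comp hA))
  have hG : ContinuousWithinAt (fun j => away (Q j) (Js j)) s i :=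
    continuousWithinAt_const.sub (hs.clm_comp
      ((contAt_inverse ((contAt_adjoint hs).clm_comp (hQ.clm_comp hs)) h.unitG).clm_comp
        ((contAt_adjoint hs).clm_comp hQ)))
  exact hb.clm_comp (contAt_normFrame hA
    ((contAt_adjoint (hG.clm_comp (hb.clm_comp hK))).clm_comp (hQ.clm_comp hb)) h.spec.2.2.2.2)

end

end Vale.Agent.P225.Disproof.Mix
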