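import Vale.Agent.P225.Disproof.Mix.Half
import Vale.Agent.P225.Disproof.Mix.Product

/-!
# P225: a block of two half blocks

After the second half block the flag `F` at the start becomes low again in the second rest; modulo
`F (l - 1)` the loss of slot `l` is the level `M + lo + 1 - l` in the first rest, the level `l` in
the second one and `top` elsewhere.
-/

namespace Vale.Agent.P225.Disproof

open Set Module
open scoped RealInnerProductSpace

noncomputable section

variable {E : Type*} [NormedAddCommGroup E] [InnerProductSpace ℝ E] [FiniteDimensional ℝ E]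
  {a b ε : ℝ}

/-- The data of a block: half block `[t0, tm]`, half block `[tm, t2]`, forgetting up to `ef`. -/
structure Block (S : DualSys E a b ε) (lev : ℕ → ℝ) (lo M : ℕ) (c T B : ℝ)
    (t0 te tm te' ef t2 : ℝ) (F G G' HA HB : ℕ → Submodule ℝ E) : Prop where
  first : Half S lev lo M c T t0 te tm F G HA
  second : Half S lev lo M c T tm te' t2 G G' HB
  rest₁ : RestHyp S lev lo M c T te tm
  rest₂ : RestHyp S lev lo M c T te' t2
  hc : 0 < c
  hT : 0 ≤ T
  hcB : c ≤ B
  htop : S.top ≤ B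
  hlev : ∀ l, lo ≤ l → l ≤ M → |lev l| ≤ B
  hlo : lo ≤ M
  inside₀ : a ≤ t0
  inside₂ : t2 ≤ b
  h₁ : t0 ≤ te
  h₂ : te + 2 * T ≤ tm
  h₃ : tm ≤ te'
  h₄ : te' + T ≤ ef
  h₅ : ef + T ≤ t2
  forget : (40 * B ^ 2 / c ^ 2) ^ 2 * Real.exp ((2 * S.top + 2 * ε) * (te' + T - (tm - T)) -
    (4 * c - 2 * ε) * (ef - (te' + T))) ≤ c ^ 2 / (32 * B ^ 2)

/-- The logarithm of the loss of slot `l`, without the constant. -/
def blockExp (lev : ℕ → ℝ) (lo M : ℕ) (top ε T t0 te tm ef t2 : ℝ) (l : ℕ) : ℝ :=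
  (2 * top + ε) * (te + T - t0) + (2 * lev (M + lo + 1 - l) + ε) * (tm - T - (te + T)) +
    (2 * top + ε) * (ef - (tm - T)) + (2 * lev l + ε) * (t2 - ef)

namespace Block

variable {S : DualSys E a b ε} {lev : ℕ → ℝ} {lo M : ℕ} {c T B : ℝ} {t0 te tm te' ef t2 : ℝ}
  {F G G' HA HB : ℕ → Submodule ℝ E}
  (h : Block S lev lo M c T B t0 te tm te' ef t2 F G G' HA HB)
include h

theorem top_nonpos {τ : ℝ} (hτ : τ ∈ Icc te' t2) (hI : τ ∈ Icc a b) (x : E) :
    S.cone (lev M) τ x ≤ 0 := by
  have h1 := h.rest₂.top τ hτ x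
  rcases eq_or_ne x 0 with rfl | hx
  · simp [DualSys.cone]
  · have h2 : 0 ≤ c * S.nrm τ x := mul_nonneg h.hc.le (S.posN τ hI x hx).le
    linarith

theorem mem_I {τ : ℝ} (h1 : t0 ≤ τ) (h2 : τ ≤ t2) : τ ∈ Icc a b :=
  ⟨h.inside₀.trans h1, h2.trans h.inside₂⟩

theorem G_le {l : ℕ} (h1 : lo ≤ l) (h2 : l ≤ M) : G lo ≤ G l := by
  induction l, h1 using Nat.le_induction with
  | base => exact le_rfl
  | succ n hn ih => exact (ih (by omega)).trans (h.first.W_mono n hn h2)

theorem HB_le {l : ℕ} (h1 : lo ≤ l) (h2 : l ≤ M) : HB l ≤ HB lo := by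
  induction l, h1 using Nat.le_induction with
  | base => exact le_rfl
  | succ n hn ih => exact (h.second.H_anti n hn h2).trans (ih (by omega))

/-- The flag of the start is low from `ef` on. -/
theorem flag_low {l : ℕ} (h1 : lo ≤ l) (h2 : l ≤ M) {x : E} (hx : x ∈ F l) :
    ∀ τ ∈ Icc ef t2, S.cone (lev l) τ x ≤ 0 := by
  have hmem := fun {τ : ℝ} (q1 : t0 ≤ τ) (q2 : τ ≤ t2) => h.mem_I q1 q2
  rcases h2.eq_or_lt with rfl | h2
  · intro τ hτ
    have h01 := h.h₁; have h02 := h.h₂; have h03 := h.h₃; have h04 := h.h₄; have hT := h.hT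
    exact h.top_nonpos ⟨by linarith [hτ.1], hτ.2⟩ (hmem (by linarith [hτ.1]) hτ.2) x
  have h01 := h.h₁; have h02 := h.h₂; have h03 := h.h₃; have h04 := h.h₄; have h05 := h.h₅
  have hT := h.hT
  set bb := M + lo - l with hbb
  set m := tm - T with hm
  set e1 := te' + T with he1
  have hmI : m ∈ Icc a b := hmem (by linarith) (by linarith)
  have heI : ef ∈ Icc a b := hmem (by linarith) (by linarith)
  have hHA : F l = F lo ⊔ HA bb := by
    have := h.first.reversal (l - lo) (by omega)
    rwa [show lo + (l - lo) = l by omega, show M - (l - lo) = bb by omega] at this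
  have hHB : HB l ≤ G bb := by
    have := h.second.reversal (M - l) (by omega)
    rw [show lo + (M - l) = bb by omega, show M - (M - l) = l by omega] at this
    rw [this]
    exact le_sup_right
  rw [hHA] at hx
  obtain ⟨w0, hw0, hm0, hhm, rfl⟩ := Submodule.mem_sup.1 hx
  obtain ⟨w, hw, g, hg, hsum⟩ := Submodule.mem_sup.1
    (show w0 + hm0 ∈ G' l ⊔ HB l by rw [h.second.compl l h1 h2.le]; exact Submodule.mem_top)
  set K1 := 40 * B ^ 2 / c ^ 2
  have hK : 0 ≤ K1 := by positivity
  -- at the middle the high part is controlled by the low part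
  have hgm : c * S.nrm m g ≤ S.cone (lev lo) m g :=
    ((h.rest₁.opens lo le_rfl (h1.trans_lt h2)).high_backward g m ⟨by linarith, by linarith⟩ tm
      ⟨by linarith, le_rfl⟩ (h.second.H_start g (h.HB_le h1 h2.le hg))).2 (by linarith)
  have hw0G : w0 ∈ G lo := by rw [h.first.W_lo]; exact hw0
  have f1 : S.nrm m g ≤ K1 * S.nrm m (-w0 + g) := by
    refine DualSys.high_le hmI h.hc h.htop (h.hlev lo le_rfl h.hlo) h.hcB ?_ hgm
    rw [DualSys.cone_neg]
    refine (h.first.W_low lo le_rfl h.hlo m ⟨by linarith, by linarith⟩ w0 hw0G).trans ?_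
    have := mul_nonneg h.hc.le (DualSys.nrm_nonneg (S := S) hmI w0)
    linarith
  have f2 : S.nrm m (w0 - g) ≤ K1 * S.nrm m w := by
    have hP : w0 - g ∈ G bb :=
      Submodule.sub_mem _ (h.G_le (by omega) (by omega) hw0G) (hHB hg)
    have hhigh := h.first.H_high bb (by omega) (by omega) m ⟨by linarith, le_rfl⟩ hm0 hhm
    have := DualSys.low_le hmI h.hc h.htop (h.hlev bb (by omega) (by omega)) h.hcB
      (h.first.W_low bb (by omega) (by omega) m ⟨by linarith, by linarith⟩ _ hP) (h := hm0)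
      (le_trans (mul_nonneg h.hc.le (DualSys.nrm_nonneg (S := S) hmI _)) hhigh)
    rwa [show w0 - g + hm0 = w by rw [sub_add_eq_add_sub, ← hsum, add_sub_cancel_right]] at this
  rw [show -w0 + g = -(w0 - g) by abel, DualSys.nrm_neg] at f1
  have f3 := DualSys.rate_ceiling (S := S) hmI.1 ((by linarith : e1 ≤ t2).trans h.inside₂)
    (by linarith) g
  have f4 := DualSys.rate_top (S := S) hmI.1 ((by linarith : e1 ≤ t2).trans h.inside₂)
    (by linarith : m ≤ e1) w
  have f5 := DualSys.rate_high (S := S) (hmem (by linarith : t0 ≤ e1) (by linarith)).1 heI.2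
    h04 (x := g) (m := lev l + c) fun τ hτ => by
      have := h.second.H_high l h1 h2.le τ ⟨by linarith [hτ.1], by linarith [hτ.2]⟩ g hg
      simp only [DualSys.cone, DualSys.nrm] at this ⊢
      linarith
  have f6 := DualSys.rate_low (S := S) (hmem (by linarith : t0 ≤ e1) (by linarith)).1 heI.2
    h04 (x := w) (m := lev l - c) fun τ hτ => by
      have := h.second.W_low l h1 h2.le τ ⟨by linarith [hτ.1], by linarith [hτ.2]⟩ w hw
      simp only [DualSys.cone, DualSys.nrm] at this ⊢
      linarith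
  have f7 : S.nrm ef g ≤ c ^ 2 / (32 * B ^ 2) * S.nrm ef w := by
    set D0 := e1 - m
    set D1 := ef - e1
    have hw' := DualSys.nrm_nonneg (S := S) heI w
    refine le_trans ?_ (mul_le_mul_of_nonneg_right h.forget hw')
    refine le_of_mul_le_mul_left ?_ (Real.exp_pos ((2 * (lev l + c) - ε) * D1))
    refine f5.trans (f3.trans ?_)
    have g1 := f1.trans (mul_le_mul_of_nonneg_left f2 hK)
    have g2 := (g1.trans (mul_le_mul_of_nonneg_left (mul_le_mul_of_nonneg_left
      (f4.trans (mul_le_mul_of_nonneg_left f6 (Real.exp_pos _).le)) hK) hK))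
    refine (mul_le_mul_of_nonneg_left g2 (Real.exp_pos _).le).trans (le_of_eq ?_)
    simp only [K1]
    rw [show (2 * S.top + 2 * ε) * D0 - (4 * c - 2 * ε) * D1 =
      ε * D0 + (2 * S.top + ε) * D0 + (2 * (lev l - c) + ε) * D1 +
        -((2 * (lev l + c) - ε) * D1) by ring, Real.exp_add, Real.exp_add, Real.exp_add,
      Real.exp_neg]
    field_simp
  -- the sum is low
  have hfin : S.cone (lev l) ef (w0 + hm0) ≤ 0 := by
    rw [← hsum]
    have hs : 0 < c / (4 * B) := by
      have : 0 < B := h.hc.trans_le h.hcB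
      have := h.hc
      positivity
    have hB : 0 < B := h.hc.trans_le h.hcB
    have e : S.cone (lev l) ef (w + g) = S.cone (lev l) ef w + S.cone (lev l) ef g +
        2 * (⟪w, S.En ef g⟫ - lev l * ⟪w, S.N ef g⟫) := by
      simp only [DualSys.cone, map_add, inner_add_left, inner_add_right,
        show ⟪g, S.En ef w⟫ = ⟪w, S.En ef g⟫ by rw [← S.symEn ef heI, real_inner_comm],
        show ⟪g, S.N ef w⟫ = ⟪w, S.N ef g⟫ by rw [← S.symN ef heI, real_inner_comm]]
      ring
    have c1 := h.second.W_low l h1 h2.le ef ⟨h04, by linarith⟩ w hw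
    have c2 := (abs_le.1 (DualSys.cone_pair_le (S := S) heI h.htop (h.hlev l h1 h2.le) hs w g)).2
    have c3 := (abs_le.1 (DualSys.cone_pair_le (S := S) heI h.htop (h.hlev l h1 h2.le)
      one_pos g g)).2
    have c4 : B * (c / (4 * B)) = c / 4 := by field_simp
    have c5 : B * (c / (4 * B))⁻¹ = 4 * B ^ 2 / c := by field_simp
    rw [mul_add, ← mul_assoc, ← mul_assoc, c4, c5] at c2
    rw [inv_one, one_mul] at c3
    have hw' := DualSys.nrm_nonneg (S := S) heI w
    have c6 := mul_le_mul_of_nonneg_left f7 (by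
      have := h.hc
      positivity : (0 : ℝ) ≤ 8 * B ^ 2 / c + 2 * B)
    have c7 : (8 * B ^ 2 / c + 2 * B) * (c ^ 2 / (32 * B ^ 2)) = c / 4 + c ^ 2 / (16 * B) := by
      have := h.hc.ne'
      field_simp
      ring
    rw [← mul_assoc, c7] at c6
    have c8 : c ^ 2 / (16 * B) ≤ c / 4 := by
      rw [div_le_div_iff₀ (by linarith) (by norm_num)]
      have := mul_le_mul_of_nonneg_left h.hcB h.hc.le
      nlinarith [h.hc]
    have c9 := mul_le_mul_of_nonneg_right c8 hw'
    simp only [DualSys.cone, DualSys.nrm] at c1 c2 c3 c6 c9 e hw' ⊢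
    have c10 := mul_nonneg h.hc.le hw'
    ring_nf at c1 c2 c3 c6 c9 e ⊢
    linarith
  intro τ hτ
  exact ((h.rest₂.opens l h1 h2).low_forward _ ef ⟨by linarith, by linarith⟩ τ hτ hfin).1

/-- The flag of the start is strictly low at the end. -/
theorem flag_end {l : ℕ} (h1 : lo ≤ l) (h2 : l ≤ M) {x : E} (hx : x ∈ F l) (hx0 : x ≠ 0) :
    S.cone (lev l) t2 x < 0 := by
  have h01 := h.h₁; have h02 := h.h₂; have h03 := h.h₃; have h04 := h.h₄; have h05 := h.h₅
  have hT := h.hT
  have hI : t2 ∈ Icc a b := h.mem_I (by linarith) le_rfl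
  have hpos := mul_pos h.hc (S.posN t2 hI x hx0)
  rcases h2.eq_or_lt with rfl | hlt
  · have := h.rest₂.top t2 ⟨by linarith, le_rfl⟩ x
    simp only [DualSys.nrm] at this
    linarith
  · have := ((h.rest₂.opens l h1 hlt).low_forward x ef ⟨by linarith, by linarith⟩ t2
      ⟨by linarith, le_rfl⟩ (h.flag_low h1 h2 hx ef ⟨le_rfl, by linarith⟩)).2 (by linarith)
    simp only [DualSys.nrm] at this
    linarith

/-- The loss of slot `l` over the block. -/
theorem seg {l : ℕ} (h1 : lo < l) (h2 : l ≤ M) (hle : F (l - 1) ≤ F l) {x : E} (hx : x ∈ F l) :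
    S.Seg t0 t2 (F (l - 1)) (40 * B ^ 2 / c ^ 2 *
      Real.exp (blockExp lev lo M S.top ε T t0 te tm ef t2 l)) x := by
  have h01 := h.h₁; have h02 := h.h₂; have h03 := h.h₃; have h04 := h.h₄; have h05 := h.h₅
  have hT := h.hT
  set bb := M + lo + 1 - l with hbb
  have hF' : F (l - 1) = F lo ⊔ HA bb := by
    have := h.first.reversal (l - 1 - lo) (by omega)
    rwa [show lo + (l - 1 - lo) = l - 1 by omega, show M - (l - 1 - lo) = bb by omega] at this
  have hb1 : lo ≤ bb := by omega
  have hb2 : bb ≤ M := by omega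
  have s1 := DualSys.seg_top (S := S) h.inside₀ (h.mem_I (show t0 ≤ te + T by linarith)
    (by linarith)).2 (by linarith) (F (l - 1)) x
  have s2 := DualSys.seg_split (S := S) (m := lev bb) (μ := lev bb)
    (h.mem_I (show t0 ≤ te + T by linarith) (by linarith)).1
    (h.mem_I (show t0 ≤ tm - T by linarith) (by linarith)).2 (by linarith)
    (h.first.compl bb hb1 hb2) (show HA bb ≤ F (l - 1) by rw [hF']; exact le_sup_right) h.hc
    h.htop (h.hlev bb hb1 hb2) h.hcB
    (fun p hp τ hτ => (h.first.W_low bb hb1 hb2 τ ⟨hτ.1, by linarith [hτ.2]⟩ p hp).trans (by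
      have := mul_nonneg h.hc.le (DualSys.nrm_nonneg (S := S)
        (h.mem_I (show t0 ≤ τ by linarith [hτ.1]) (by linarith [hτ.2])) p)
      linarith))
    (h.first.W_low bb hb1 hb2 (tm - T) ⟨by linarith, by linarith⟩)
    (fun g hg => le_trans (mul_nonneg h.hc.le (DualSys.nrm_nonneg (S := S)
      (h.mem_I (by linarith) (by linarith)) g))
      (h.first.H_high bb hb1 hb2 (tm - T) ⟨by linarith, le_rfl⟩ g hg)) x
  have s3 := DualSys.seg_top (S := S) (h.mem_I (show t0 ≤ tm - T by linarith) (by linarith)).1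
    (h.mem_I (show t0 ≤ ef by linarith) (by linarith)).2 (by linarith) (F (l - 1)) x
  have s4 := DualSys.seg_low (S := S) (h.mem_I (show t0 ≤ ef by linarith) (by linarith)).1
    h.inside₂ (by linarith) hle (fun y hy => h.flag_low h1.le h2 hy) hx
  have hs := ((s1.trans s2 (Real.exp_pos _).le).trans s3 (by positivity)).trans s4 (by positivity)
  intro y' hy'
  obtain ⟨y, hy, hle'⟩ := hs y' hy'
  refine ⟨y, hy, hle'.trans (le_of_eq ?_)⟩
  rw [blockExp, ← hbb, Real.exp_add, Real.exp_add, Real.exp_add]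
  ring

/-- The loss on the bottom plane over the block. -/
theorem base {x : E} (hx : x ∈ F lo) :
    S.nrm t0 x ≤ Real.exp ((2 * S.top + ε) * (te + T - t0) + (2 * lev lo + ε) * (tm - (te + T)) +
      (2 * S.top + ε) * (ef - tm) + (2 * lev lo + ε) * (t2 - ef)) * S.nrm t2 x := by
  have h01 := h.h₁; have h02 := h.h₂; have h03 := h.h₃; have h04 := h.h₄; have h05 := h.h₅
  have hT := h.hT
  have i1 := h.mem_I (show t0 ≤ te + T by linarith) (by linarith)
  have i2 := h.mem_I (show t0 ≤ tm by linarith) (by linarith)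
  have i3 := h.mem_I (show t0 ≤ ef by linarith) (by linarith)
  have r1 := DualSys.rate_top (S := S) h.inside₀ i1.2 (by linarith : t0 ≤ te + T) x
  have r2 := DualSys.rate_low (S := S) i1.1 i2.2 (by linarith : te + T ≤ tm) (x := x) (m := lev lo)
    fun τ hτ => (h.first.W_low lo le_rfl h.hlo τ hτ x (by rw [h.first.W_lo]; exact hx)).trans (by
      have := mul_nonneg h.hc.le (DualSys.nrm_nonneg (S := S)
        (h.mem_I (show t0 ≤ τ by linarith [hτ.1]) (by linarith [hτ.2])) x)
      linarith)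
  have r3 := DualSys.rate_top (S := S) i2.1 i3.2 (by linarith : tm ≤ ef) x
  have r4 := DualSys.rate_low (S := S) i3.1 h.inside₂ (by linarith : ef ≤ t2)
    (h.flag_low le_rfl h.hlo hx)
  rw [Real.exp_add, Real.exp_add, Real.exp_add, mul_assoc, mul_assoc, mul_assoc]
  refine r1.trans (mul_le_mul_of_nonneg_left (r2.trans (mul_le_mul_of_nonneg_left
    (r3.trans (mul_le_mul_of_nonneg_left r4 (Real.exp_pos _).le)) (Real.exp_pos _).le))
    (Real.exp_pos _).le)

end Block

end

end Vale.Agent.P225.Disproof
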