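import Vale.Agent.P225.Disproof.MassLevel
import Vale.Agent.P225.Disproof.DualSys
import Vale.Agent.P225.Disproof.Mix.Chain

/-!
# P225: rates, transversality and index in the cones of a dual system

`Seg t₁ t₂ F' G x`: modulo `F'` the orbit of `x` loses at most the factor `G` from `t₁` to `t₂`.
-/

namespace Vale.Agent.P225.Disproof

open Set Module
open scoped RealInnerProductSpace

noncomputable section

variable {E : Type*} [NormedAddCommGroup E] [InnerProductSpace ℝ E] [FiniteDimensional ℝ E]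

namespace DualSys

variable {a b ε : ℝ} {S : DualSys E a b ε} {t s₁ s₂ : ℝ}

theorem nrm_nonneg (ht : t ∈ Icc a b) (x : E) : 0 ≤ S.nrm t x := by
  rcases eq_or_ne x 0 with rfl | h
  · simp [nrm]
  · exact (S.posN t ht x h).le

theorem nrm_zero (t : ℝ) : S.nrm t (0 : E) = 0 := by simp [nrm]

theorem nrm_neg (t : ℝ) (x : E) : S.nrm t (-x) = S.nrm t x := by simp [nrm]

theorem cone_neg (μ t : ℝ) (x : E) : S.cone μ t (-x) = S.cone μ t x := by simp [cone]

theorem cone_mono_level (ht : t ∈ Icc a b) {μ μ' : ℝ} (h : μ ≤ μ') (x : E) :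
    S.cone μ' t x ≤ S.cone μ t x := by
  have h1 := mul_le_mul_of_nonneg_right h (nrm_nonneg (S := S) ht x)
  simp only [cone, nrm] at h1 ⊢
  linarith

theorem nrm_add_le (ht : t ∈ Icc a b) (x y : E) :
    S.nrm t (x + y) ≤ 2 * S.nrm t x + 2 * S.nrm t y := by
  have h := nrm_nonneg (S := S) ht (x - y)
  simp only [nrm, map_add, map_sub, inner_add_left, inner_add_right, inner_sub_left,
    inner_sub_right] at h ⊢
  linarith

/-- A nonnegative symmetric form obeys the weighted mean inequality. -/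
theorem two_inner_le {T : E →L[ℝ] E} (hs : ∀ x y : E, ⟪T x, y⟫ = ⟪x, T y⟫)
    (h0 : ∀ x, 0 ≤ ⟪x, T x⟫) {s : ℝ} (hs0 : 0 < s) (x y : E) :
    |2 * ⟪x, T y⟫| ≤ s * ⟪x, T x⟫ + s⁻¹ * ⟪y, T y⟫ := by
  have h1 := h0 (s • x + y)
  have h2 := h0 (s • x - y)
  simp only [map_add, map_sub, map_smul, inner_add_left, inner_add_right, inner_sub_left,
    inner_sub_right, real_inner_smul_left, real_inner_smul_right,
    show ⟪y, T x⟫ = ⟪x, T y⟫ by rw [← hs, real_inner_comm]] at h1 h2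
  rw [abs_le]
  constructor <;> refine le_of_mul_le_mul_left ?_ hs0 <;> field_simp <;> nlinarith

/-- The cone form is bounded by the norm. -/
theorem cone_pair_le (ht : t ∈ Icc a b) {μ B : ℝ} (htop : S.top ≤ B) (hμ : |μ| ≤ B) {s : ℝ}
    (hs : 0 < s) (x y : E) :
    |⟪x, S.En t y⟫ - μ * ⟪x, S.N t y⟫| ≤ B * (s * S.nrm t x + s⁻¹ * S.nrm t y) := by
  have hN := two_inner_le (S.symN t ht) (nrm_nonneg (S := S) ht) hs x y
  have hE := two_inner_le (S.symEn t ht) (S.energy_nonneg t ht) hs x y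
  have h1 := mul_le_mul_of_nonneg_left (S.energy_le t ht x) hs.le
  have h2 := mul_le_mul_of_nonneg_left (S.energy_le t ht y) (inv_nonneg.2 hs.le)
  have hN0 : 0 ≤ s * S.nrm t x + s⁻¹ * S.nrm t y := add_nonneg
    (mul_nonneg hs.le (nrm_nonneg ht x)) (mul_nonneg (inv_nonneg.2 hs.le) (nrm_nonneg ht y))
  have h3 := mul_le_mul hμ hN (abs_nonneg _) ((abs_nonneg μ).trans hμ)
  have h4 := mul_le_mul_of_nonneg_right htop hN0
  rw [← abs_mul] at h3
  have e1 := abs_le.1 hE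
  have e2 := abs_le.1 h3
  simp only [nrm] at *
  rw [abs_le]
  constructor <;> linarith

/-- The part in the strictly low cone is bounded by the sum with a nonstrictly high vector. -/
theorem low_le (ht : t ∈ Icc a b) {μ c B : ℝ} (hc : 0 < c) (htop : S.top ≤ B) (hμ : |μ| ≤ B)
    (hcB : c ≤ B) {p h : E} (hp : S.cone μ t p ≤ -c * S.nrm t p) (hh : 0 ≤ S.cone μ t h) :
    S.nrm t p ≤ 40 * B ^ 2 / c ^ 2 * S.nrm t (p + h) := by
  have hs : 0 < c / (16 * B) := by have : 0 < B := hc.trans_le hcB; positivity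
  have hB : 0 < B := hc.trans_le hcB
  have h1 := cone_pair_le ht htop hμ hs (h - p) (h + p) (S := S)
  have e : ⟪h - p, S.En t (h + p)⟫ - μ * ⟪h - p, S.N t (h + p)⟫ =
      S.cone μ t h - S.cone μ t p := by
    simp only [cone, map_add, inner_add_right, inner_sub_left,
      show ⟪p, S.En t h⟫ = ⟪h, S.En t p⟫ by rw [← S.symEn t ht, real_inner_comm],
      show ⟪p, S.N t h⟫ = ⟪h, S.N t p⟫ by rw [← S.symN t ht, real_inner_comm]]
    ring
  rw [e] at h1
  have h2 := nrm_add_le (S := S) ht (h + p) ((-2 : ℝ) • p)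
  rw [show h + p + (-2 : ℝ) • p = h - p by module,
    show S.nrm t ((-2 : ℝ) • p) = 4 * S.nrm t p by
      simp [nrm, real_inner_smul_left, real_inner_smul_right]; ring] at h2
  have h3 := mul_le_mul_of_nonneg_left h2 (mul_nonneg hB.le hs.le)
  have h4 := (le_abs_self _).trans h1
  rw [add_comm p h]
  have hp0 := nrm_nonneg (S := S) ht p
  have hs0 := nrm_nonneg (S := S) ht (h + p)
  rw [div_mul_eq_mul_div, le_div_iff₀ (by positivity)]
  have e1 : B * (c / (16 * B)) = c / 16 := by field_simp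
  have e2 : B * (c / (16 * B))⁻¹ = 16 * B ^ 2 / c := by field_simp
  have h5 : c / 2 * S.nrm t p ≤ (c / 8 + 16 * B ^ 2 / c) * S.nrm t (h + p) := by
    rw [mul_add, ← mul_assoc, ← mul_assoc, e1, e2] at h4
    rw [e1] at h3
    linarith
  have h6 := mul_le_mul_of_nonneg_left h5 (by positivity : 0 ≤ 2 * c)
  have e3 : 2 * c * (c / 8 + 16 * B ^ 2 / c) = c ^ 2 / 4 + 32 * B ^ 2 := by field_simp; ring
  rw [← mul_assoc, ← mul_assoc, e3] at h6
  have h7 : c ^ 2 ≤ B ^ 2 := pow_le_pow_left₀ hc.le hcB 2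
  nlinarith

/-- The mirror image of `low_le`. -/
theorem high_le (ht : t ∈ Icc a b) {μ c B : ℝ} (hc : 0 < c) (htop : S.top ≤ B) (hμ : |μ| ≤ B)
    (hcB : c ≤ B) {p h : E} (hp : S.cone μ t p ≤ 0) (hh : c * S.nrm t h ≤ S.cone μ t h) :
    S.nrm t h ≤ 40 * B ^ 2 / c ^ 2 * S.nrm t (p + h) := by
  have hs : 0 < c / (16 * B) := by have : 0 < B := hc.trans_le hcB; positivity
  have hB : 0 < B := hc.trans_le hcB
  have h1 := cone_pair_le ht htop hμ hs (h - p) (h + p) (S := S)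
  have e : ⟪h - p, S.En t (h + p)⟫ - μ * ⟪h - p, S.N t (h + p)⟫ =
      S.cone μ t h - S.cone μ t p := by
    simp only [cone, map_add, inner_add_right, inner_sub_left,
      show ⟪p, S.En t h⟫ = ⟪h, S.En t p⟫ by rw [← S.symEn t ht, real_inner_comm],
      show ⟪p, S.N t h⟫ = ⟪h, S.N t p⟫ by rw [← S.symN t ht, real_inner_comm]]
    ring
  rw [e] at h1
  have h2 := nrm_add_le (S := S) ht ((2 : ℝ) • h) (-(h + p))
  rw [show (2 : ℝ) • h + -(h + p) = h - p by module, nrm_neg,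
    show S.nrm t ((2 : ℝ) • h) = 4 * S.nrm t h by
      simp [nrm, real_inner_smul_left, real_inner_smul_right]; ring] at h2
  have h3 := mul_le_mul_of_nonneg_left h2 (mul_nonneg hB.le hs.le)
  have h4 := (le_abs_self _).trans h1
  rw [add_comm p h]
  have hp0 := nrm_nonneg (S := S) ht h
  have hs0 := nrm_nonneg (S := S) ht (h + p)
  rw [div_mul_eq_mul_div, le_div_iff₀ (by positivity)]
  have e1 : B * (c / (16 * B)) = c / 16 := by field_simp
  have e2 : B * (c / (16 * B))⁻¹ = 16 * B ^ 2 / c := by field_simp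
  have h5 : c / 2 * S.nrm t h ≤ (c / 8 + 16 * B ^ 2 / c) * S.nrm t (h + p) := by
    rw [mul_add, ← mul_assoc, ← mul_assoc, e1, e2] at h4
    rw [e1] at h3
    linarith
  have h6 := mul_le_mul_of_nonneg_left h5 (by positivity : 0 ≤ 2 * c)
  have e3 : 2 * c * (c / 8 + 16 * B ^ 2 / c) = c ^ 2 / 4 + 32 * B ^ 2 := by field_simp; ring
  rw [← mul_assoc, ← mul_assoc, e3] at h6
  have h7 : c ^ 2 ≤ B ^ 2 := pow_le_pow_left₀ hc.le hcB 2
  nlinarith

/-- An orbit of energy at most `m` times its norm decays no faster than `exp (-(2 m + ε) t)`. -/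
theorem rate_low (h₁ : a ≤ s₁) (h₂ : s₂ ≤ b) (h : s₁ ≤ s₂) {x : E} {m : ℝ}
    (hx : ∀ t ∈ Icc s₁ s₂, S.cone m t x ≤ 0) :
    S.nrm s₁ x ≤ Real.exp ((2 * m + ε) * (s₂ - s₁)) * S.nrm s₂ x := by
  have hsub : Icc s₁ s₂ ⊆ Icc a b := Icc_subset_Icc h₁ h₂
  choose! r hr hd using fun t (ht : t ∈ Icc s₁ s₂) => S.deriv_norm t (hsub ht) x
  have hm := exp_mul_le (f := fun t => S.nrm t x) (k := fun _ => 2 * m + ε) continuous_const h
    (fun t ht => (hd t ht).mono hsub) fun t ht => ?_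
  · simp only [intervalIntegral.integral_const, smul_eq_mul] at hm
    rwa [mul_comm (s₂ - s₁)] at hm
  have h3 := hx t ht
  have h4 := (abs_le.1 (hr t ht)).1
  simp only [nrm, cone] at h3 h4 ⊢
  linarith

/-- Every orbit decays at most at the rate `top`. -/
theorem rate_top (h₁ : a ≤ s₁) (h₂ : s₂ ≤ b) (h : s₁ ≤ s₂) (x : E) :
    S.nrm s₁ x ≤ Real.exp ((2 * S.top + ε) * (s₂ - s₁)) * S.nrm s₂ x :=
  rate_low h₁ h₂ h fun t ht => sub_nonpos.2 (S.energy_le t (Icc_subset_Icc h₁ h₂ ht) x)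

/-- An orbit of energy at least `m` times its norm decays at least like `exp (-(2 m - ε) t)`. -/
theorem rate_high (h₁ : a ≤ s₁) (h₂ : s₂ ≤ b) (h : s₁ ≤ s₂) {x : E} {m : ℝ}
    (hx : ∀ t ∈ Icc s₁ s₂, 0 ≤ S.cone m t x) :
    Real.exp ((2 * m - ε) * (s₂ - s₁)) * S.nrm s₂ x ≤ S.nrm s₁ x := by
  have hsub : Icc s₁ s₂ ⊆ Icc a b := Icc_subset_Icc h₁ h₂
  choose! r hr hd using fun t (ht : t ∈ Icc s₁ s₂) => S.deriv_norm t (hsub ht) x
  have hm := exp_mul_le (f := fun t => -S.nrm t x) (k := fun _ => 2 * m - ε) continuous_const h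
    (fun t ht => ((hd t ht).mono hsub).neg) fun t ht => ?_
  · simp only [intervalIntegral.integral_const, smul_eq_mul] at hm
    rw [mul_comm (s₂ - s₁)] at hm
    linarith
  have h3 := hx t ht
  have h4 := (abs_le.1 (hr t ht)).2
  simp only [nrm, cone] at h3 h4 ⊢
  linarith

/-- No orbit grows faster than `exp (ε t)`. -/
theorem rate_ceiling (h₁ : a ≤ s₁) (h₂ : s₂ ≤ b) (h : s₁ ≤ s₂) (x : E) :
    S.nrm s₂ x ≤ Real.exp (ε * (s₂ - s₁)) * S.nrm s₁ x := by
  have h1 := rate_high (S := S) h₁ h₂ h (x := x) (m := 0) fun t ht => by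
    simpa [cone] using S.energy_nonneg t (Icc_subset_Icc h₁ h₂ ht) x
  rwa [mul_zero, zero_sub, neg_mul, Real.exp_neg, inv_mul_le_iff₀ (Real.exp_pos _)] at h1

/-- Modulo `F'` the orbit of `x` loses at most the factor `G`. -/
def Seg (S : DualSys E a b ε) (t₁ t₂ : ℝ) (F' : Submodule ℝ E) (G : ℝ) (x : E) : Prop :=
  ∀ y' ∈ F', ∃ y ∈ F', S.nrm t₁ (x - y) ≤ G * S.nrm t₂ (x - y')

theorem Seg.trans {t₁ t₂ t₃ : ℝ} {F' : Submodule ℝ E} {G G' : ℝ} {x : E}
    (h : S.Seg t₁ t₂ F' G x) (h' : S.Seg t₂ t₃ F' G' x) (hG : 0 ≤ G) :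
    S.Seg t₁ t₃ F' (G * G') x := fun y' hy' => by
  obtain ⟨y, hy, h1⟩ := h' y' hy'
  obtain ⟨z, hz, h2⟩ := h y hy
  exact ⟨z, hz, h2.trans ((mul_le_mul_of_nonneg_left h1 hG).trans (le_of_eq (mul_assoc _ _ _).symm))⟩

theorem seg_top (h₁ : a ≤ s₁) (h₂ : s₂ ≤ b) (h : s₁ ≤ s₂) (F' : Submodule ℝ E) (x : E) :
    S.Seg s₁ s₂ F' (Real.exp ((2 * S.top + ε) * (s₂ - s₁))) x :=
  fun y' hy' => ⟨y', hy', rate_top h₁ h₂ h _⟩

/-- Inside a low plane `F` the loss is the rate of the level. -/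
theorem seg_low (h₁ : a ≤ s₁) (h₂ : s₂ ≤ b) (h : s₁ ≤ s₂) {F' F : Submodule ℝ E} (hle : F' ≤ F)
    {m : ℝ} (hF : ∀ x ∈ F, ∀ t ∈ Icc s₁ s₂, S.cone m t x ≤ 0) {x : E} (hx : x ∈ F) :
    S.Seg s₁ s₂ F' (Real.exp ((2 * m + ε) * (s₂ - s₁))) x :=
  fun y' hy' => ⟨y', hy', rate_low h₁ h₂ h (hF _ (F.sub_mem hx (hle hy')))⟩

/-- Modulo a plane containing the high plane the loss is the rate of the low plane. -/
theorem seg_split (h₁ : a ≤ s₁) (h₂ : s₂ ≤ b) (h : s₁ ≤ s₂) {F' P H : Submodule ℝ E}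
    (hPH : P ⊔ H = ⊤) (hH : H ≤ F') {m μ c B : ℝ} (hc : 0 < c) (htop : S.top ≤ B)
    (hμ : |μ| ≤ B) (hcB : c ≤ B) (hP : ∀ x ∈ P, ∀ t ∈ Icc s₁ s₂, S.cone m t x ≤ 0)
    (hP2 : S.LowAt μ c s₂ P) (hH2 : ∀ x ∈ H, 0 ≤ S.cone μ s₂ x) (x : E) :
    S.Seg s₁ s₂ F' (Real.exp ((2 * m + ε) * (s₂ - s₁)) * (40 * B ^ 2 / c ^ 2)) x := fun y' hy' => by
  obtain ⟨p, hp, g, hg, hsum⟩ := Submodule.mem_sup.1
    (show x - y' ∈ P ⊔ H by rw [hPH]; exact Submodule.mem_top)
  refine ⟨y' + g, F'.add_mem hy' (hH hg), ?_⟩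
  rw [show x - (y' + g) = p by rw [← sub_sub, ← hsum, add_sub_cancel_right], ← hsum, mul_assoc]
  exact (rate_low h₁ h₂ h (hP p hp)).trans (mul_le_mul_of_nonneg_left
    (low_le ⟨h₁.trans h, h₂⟩ hc htop hμ hcB (hP2 p hp) (hH2 g hg)) (Real.exp_pos _).le)

end DualSys

/-- A symmetric form splits a subspace into a negative and a nonnegative part. -/
theorem exists_index_split (U : Submodule ℝ E) {Q : E →L[ℝ] E}
    (hQ : ∀ x y : E, ⟪Q x, y⟫ = ⟪x, Q y⟫) :
    ∃ A B : Submodule ℝ E, A ≤ U ∧ B ≤ U ∧ finrank ℝ A + finrank ℝ B = finrank ℝ U ∧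
      (∀ x ∈ A, x ≠ 0 → Mix.qf Q x < 0) ∧ ∀ x ∈ B, 0 ≤ Mix.qf Q x := by
  classical
  set T : U →ₗ[ℝ] U :=
    (U.orthogonalProjection.comp (Q.comp U.subtypeL) : U →L[ℝ] U).toLinearMap
  have hform : ∀ u v : U, ⟪u, T v⟫ = ⟪(u : E), Q (v : E)⟫ := fun u v => by
    simp [T, Submodule.inner_orthogonalProjection_eq_of_mem_left]
  have hT : T.IsSymmetric := fun u v => by
    rw [real_inner_comm, hform, hform, real_inner_comm, hQ]
  set e := hT.eigenvectorBasis rfl
  set d := hT.eigenvalues rfl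
  have he : ∀ u : U, Mix.qf Q (u : E) = ∑ i, d i * e.repr u i ^ 2 := fun u => by
    rw [Mix.qf, ← hform, ← e.repr.inner_map_map, PiLp.inner_apply]
    refine Finset.sum_congr rfl fun i _ => ?_
    rw [hT.eigenvectorBasis_apply_self_apply rfl]
    simp only [RCLike.inner_apply, RCLike.ofReal_real_eq_id, id, conj_trivial]
    ring
  set sp : (Fin (finrank ℝ U) → Prop) → Submodule ℝ E := fun P =>
    (Submodule.span ℝ (e '' {i | P i})).map U.subtype
  have hdim : ∀ (P : Fin (finrank ℝ U) → Prop) [DecidablePred P],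
      finrank ℝ (sp P) = (Finset.univ.filter P).card := fun P _ => by
    have hl : LinearIndependent ℝ fun i : {i // P i} => e i :=
      e.orthonormal.linearIndependent.comp _ Subtype.val_injective
    have h1 := finrank_span_eq_card hl
    rw [Fintype.card_subtype] at h1
    have hset : e '' {i | P i} = range fun i : {i // P i} => e i := by
      ext u
      simp
    rw [← h1, (Submodule.equivMapOfInjective U.subtype U.injective_subtype _).finrank_eq.symm,
      hset]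
  have hrepr : ∀ (P : Fin (finrank ℝ U) → Prop) (u : U),
      u ∈ Submodule.span ℝ (e '' {i | P i}) → ∀ i, ¬P i → e.repr u i = 0 := by
    intro P u hu i hi
    induction hu using Submodule.span_induction with
    | mem v hv =>
      obtain ⟨k, hk, rfl⟩ := hv
      rw [e.repr_self, PiLp.single_apply, if_neg]
      rintro rfl
      exact hi hk
    | zero => simp
    | add v w _ _ hv hw => simp [hv, hw]
    | smul r v _ hv => simp [hv]
  refine ⟨sp (fun i => d i < 0), sp (fun i => ¬d i < 0), Submodule.map_subtype_le _ _,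
    Submodule.map_subtype_le _ _, ?_, ?_, ?_⟩
  · rw [hdim, hdim, Finset.card_filter_add_card_filter_not, Finset.card_univ, Fintype.card_fin]
  · rintro _ ⟨u, hu, rfl⟩ hne
    rw [Submodule.subtype_apply, he]
    obtain ⟨i, hi⟩ : ∃ i, e.repr u i ≠ 0 := by
      by_contra hcon
      push Not at hcon
      refine hne ?_
      have : u = 0 := e.repr.injective (PiLp.ext fun i => by simpa using hcon i)
      simp [this]
    have hneg : d i < 0 := not_not.1 fun hh => hi (hrepr _ u hu i hh)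
    refine Finset.sum_neg' (fun k _ => ?_) ⟨i, Finset.mem_univ _,
      mul_neg_of_neg_of_pos hneg (pow_two_pos_of_ne_zero hi)⟩
    by_cases hk : d k < 0
    · exact mul_nonpos_of_nonpos_of_nonneg hk.le (sq_nonneg _)
    · simp [hrepr _ u hu k hk]
  · rintro _ ⟨u, hu, rfl⟩
    rw [Submodule.subtype_apply, he]
    refine Finset.sum_nonneg fun k _ => ?_
    by_cases hk : d k < 0
    · simp [hrepr _ u hu k (not_not.2 hk)]
    · exact mul_nonneg (not_lt.1 hk) (sq_nonneg _)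

end

end Vale.Agent.P225.Disproof
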