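import Vale.Agent.P225.Disproof.Mix.Chain
import Vale.Agent.P225.Disproof.PM

/-!
# P225: common zero of the equations of a chain

The frames and equations depend continuously on the parameters, so the theorem of Poincare and
Miranda gives parameters at which all equations vanish.
-/

namespace Vale.Agent.P225.Disproof.Mix

open scoped RealInnerProductSpace
open ContinuousLinearMap Set

noncomputable section

variable {E : Type*} [NormedAddCommGroup E] [InnerProductSpace ℝ E] [FiniteDimensional ℝ E]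
  {ι : Type*} [TopologicalSpace ι] {D : ι → CData E} {lo M : ℕ} {S : Set ι}

/-- A family of chains with continuous data on `S` and fixed loops. -/
structure ContChain (D : ι → CData E) (lo M : ℕ) (S : Set ι) (K : ℕ) (jf : ℕ → ℕ) : Prop where
  hK : ∀ s, (D s).K = K
  hjf : ∀ s, (D s).jf = jf
  chain : ∀ s ∈ S, IsChain (D s) lo M
  contQ : ∀ k ≤ K, ∀ l, lo ≤ l → l ≤ M → ContinuousOn (fun s => (D s).Q k l) S
  contP : ∀ k ≤ K, ∀ l, lo ≤ l → l ≤ M → ContinuousOn (fun s => (D s).proj k l) S
  contC : ∀ l, lo ≤ l → l ≤ M → ContinuousOn (fun s => (D s).C0 l) S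

namespace ContChain

variable {K : ℕ} {jf : ℕ → ℕ} (h : ContChain D lo M S K jf)
include h

theorem cont_J : ∀ k ≤ K, ∀ l, lo ≤ l → l ≤ M → ContinuousOn (fun s => (D s).J k l) S := by
  intro k
  induction k with
  | zero =>
    intro _ l h1 h2 s hs
    obtain ⟨a, b⟩ := (h.chain s hs).normFrame_init h1 h2
    exact contAt_normFrame (h.contP 0 (Nat.zero_le _) l h1 h2 s hs) (h.contC l h1 h2 s hs)
      (normFrame_spec a b).2.2.2
  | succ k ih =>
    intro hk l h1 h2 s hs
    have hk' : k ≤ K := by omega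
    have hks : k < (D s).K := by rw [h.hK s]; omega
    have hL := (h.chain s hs).lowState k hks.le
    simp only [CData.J, h.hjf]
    split_ifs with hl
    · subst hl
      obtain ⟨hlo, hj⟩ := (h.hjf s ▸ (h.chain s hs).jf_mem k hks).resolve_right (by omega)
      refine contAt_cut (h.contQ _ hk _ h1 h2 s hs) (h.contP _ hk _ h1 h2 s hs)
        (ih hk' _ (by omega) (by omega) s hs) (ih hk' _ (by omega) (by omega) s hs) ?_
      have := (h.chain s hs).cutHyp_low hks hL (by rw [h.hjf s]; exact hj)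
      rwa [h.hjf s] at this
    · have hP := h.contP _ hk l h1 h2 s hs
      exact (ih hk' l h1 h2 s hs).clm_comp (contAt_inverse (hP.clm_comp (ih hk' l h1 h2 s hs))
        ((h.chain s hs).W_step hks hL h1 h2 (by rw [h.hjf s]; exact hl)).2)

theorem cont_R : ∀ i k, k + i = K → ∀ l, lo ≤ l → l ≤ M →
    ContinuousOn (fun s => (D s).R k l) S := by
  intro i
  induction i with
  | zero =>
    intro k hk l h1 h2
    obtain rfl : k = K := by omega
    refine (h.contP _ le_rfl l h1 h2).congr fun s _ => ?_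
    rw [← h.hK s, CData.R_last]
  | succ i ih =>
    intro k hki l h1 h2 s hs
    have hk : k < K := by omega
    have hks : ∀ t, k < (D t).K := fun t => by rw [h.hK t]; exact hk
    have hcong : ∀ t ∈ S, (D t).R k l = if l = jf k then
        (adjoint (cut (Ring.inverse ((D t).Q k l)) (adjoint ((D t).J k l)) (adjoint ((D t).R (k + 1) (l - 1)))
          (adjoint ((D t).R (k + 1) (l + 1)))))
        else Ring.inverse ((D t).R (k + 1) l ∘L (D t).J k l) ∘L (D t).R (k + 1) l := fun t _ => by
      rw [CData.R_step _ (hks t), h.hjf t]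
    refine ContinuousWithinAt.congr ?_ hcong (hcong s hs)
    have hS := (h.chain s hs).highState i (k + 1) (by rw [h.hK s]; omega)
    have hJ := h.cont_J k hk.le
    split_ifs with hl
    · subst hl
      obtain ⟨hlo, hj⟩ := (h.hjf s ▸ (h.chain s hs).jf_mem k (hks s)).resolve_right (by omega)
      obtain ⟨a1, a2⟩ := ((h.chain s hs).lowState k (hks s).le).1 _ h1 h2
      have hu : IsUnit ((D s).Q k (jf k)) := isUnit_form
        ((h.chain s hs).symQ k (hks s).le _ h1 h2) ((h.chain s hs).ker_pos k (hks s).le _ h1 h2)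
        a1 a2
      refine contAt_adjoint (contAt_cut (contAt_inverse (h.contQ k hk.le _ h1 h2 s hs) hu)
        (contAt_adjoint (hJ _ h1 h2 s hs))
        (contAt_adjoint (ih _ (by omega) _ (by omega) (by omega) s hs))
        (contAt_adjoint (ih _ (by omega) _ (by omega) (by omega) s hs)) ?_)
      have := ((h.chain s hs).cutHyp_high (hks s) hS.1 hS.2 (by rw [h.hjf s]; exact hj)).1
      rwa [h.hjf s] at this
    · refine (contAt_inverse ((ih _ (by omega) l h1 h2 s hs).clm_comp (hJ l h1 h2 s hs)) ?_).clm_comp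
        (ih _ (by omega) l h1 h2 s hs)
      refine IsChain.isUnit_renorm (((h.chain s hs).lowState k (hks s).le).1 l h1 h2).2
        fun x hx hx0 => (h.chain s hs).keepHigh k (hks s) l h1 h2 (by rw [h.hjf s]; exact hl) x hx0
          ((hS.1 l h1 h2).1 x hx hx0).le

theorem cont_eqn {k : ℕ} (hk : k < K) (hlo : lo ≤ jf k) (hM : jf k ≤ M) :
    ContinuousOn (fun s => (D s).eqn k) S := by
  have h1 := (h.cont_R (K - (k + 1)) (k + 1) (by omega) _ hlo hM).clm_comp
    (h.cont_J k hk.le _ hlo hM)
  refine (ContinuousLinearMap.continuous_det.comp_continuousOn h1).congr fun s _ => ?_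
  rw [CData.eqn, h.hjf s]; rfl

end ContChain

/-- Poincare-Miranda for a chain whose loop `kk i` is steered by coordinate `i`. -/
theorem exists_zero {n K : ℕ} {jf : ℕ → ℕ} {D : (Fin n → ℝ) → CData E}
    (h : ContChain D lo M (Icc 0 1) K jf) (kk : Fin n → ℕ) (hkk : ∀ i, kk i < K ∧ jf (kk i) < M)
    (hcover : ∀ k < K, jf k < M → ∃ i, kk i = k)
    (σ : Fin n → ℝ)
    (hface : ∀ i, ∀ s ∈ Icc (0 : Fin n → ℝ) 1, (s i = 0 ∨ s i = 1) →
      ∀ x, x ≠ 0 → qf ((D s).Q (kk i) (jf (kk i))) x ≤ 0 →
        qf ((D s).Q (kk i + 1) (jf (kk i))) x < 0)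
    (hor : ∀ i, ∀ s ∈ Icc (0 : Fin n → ℝ) 1, (s i = 0 ∨ s i = 1) →
      ∀ J : Co (jf (kk i)) →L[ℝ] E, (∀ v, (D s).proj (kk i) (jf (kk i)) (J v) = v) →
        (∀ v, v ≠ 0 → qf ((D s).Q (kk i) (jf (kk i))) (J v) < 0) →
        0 < (if s i = 0 then -σ i else σ i) * ((D s).proj (kk i + 1) (jf (kk i)) ∘L J).det) :
    ∃ s ∈ Icc (0 : Fin n → ℝ) 1, ∀ k < K, jf k < M →
      (D s).W k (jf k) ⊓ (D s).H (k + 1) (jf k) ≠ ⊥ := by
  have hsign : ∀ i, ∀ s ∈ Icc (0 : Fin n → ℝ) 1, (s i = 0 ∨ s i = 1) →
      0 < (if s i = 0 then -σ i else σ i) * (D s).eqn (kk i) := by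
    intro i s hs hf
    have hk : kk i < (D s).K := by rw [h.hK s]; exact (hkk i).1
    have := (h.chain s hs).eqn_sign (σ := if s i = 0 then -σ i else σ i) hk
      (by rw [h.hjf s]; exact (hkk i).2)
      (by rw [h.hjf s]; exact hface i s hs hf) (by rw [h.hjf s]; exact hor i s hs hf)
    exact this
  obtain ⟨s, hs, hz⟩ := PM.poincareMiranda_of_signs (fun i s => (D s).eqn (kk i)) σ
    (fun i => by
      have hk := (hkk i).1
      by_cases hlo : lo ≤ jf (kk i)
      · exact h.cont_eqn hk hlo (hkk i).2.le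
      · intro s hs
        have := (h.hjf s ▸ (h.chain s hs).jf_mem (kk i) (by rw [h.hK s]; exact hk))
        have := (hkk i).2
        omega)
    (fun i s hs e => by
      have := hsign i s hs (Or.inl e)
      rw [if_pos e] at this
      linarith)
    (fun i s hs e => by
      have := hsign i s hs (Or.inr e)
      rwa [if_neg (by rw [e]; exact one_ne_zero)] at this)
  refine ⟨s, hs, fun k hk hj => ?_⟩
  obtain ⟨i, rfl⟩ := hcover k hk hj
  have := (h.chain s hs).meet_of_eqn_zero (k := kk i) (by rw [h.hK s]; exact hk)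
    (by rw [h.hjf s]; exact hj) (hz i)
  rwa [h.hjf s] at this

end

end Vale.Agent.P225.Disproof.Mix
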