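import Vale.Agent.P225.Disproof.Mix.Rates
import Vale.Agent.P225.Disproof.Mix.Zero

/-!
# P225: a timed dual system gives a chain

Checkpoints `t k` lie in rests, where every gap is open at the constant levels `lev l`; between two
checkpoints every gap except that of the loop is open. Two buffers of length `L` make the index
count work at the loop.
-/

namespace Vale.Agent.P225.Disproof

open Set Module
open scoped RealInnerProductSpace

noncomputable section

variable {E : Type*} [NormedAddCommGroup E] [InnerProductSpace ℝ E] [FiniteDimensional ℝ E]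
  {a b ε : ℝ}

/-- A subspace has subspaces of every smaller dimension. -/
theorem exists_sub_finrank {U : Submodule ℝ E} {n : ℕ} (hn : n ≤ finrank ℝ U) :
    ∃ V ≤ U, finrank ℝ V = n := by
  induction d : finrank ℝ U - n generalizing U with
  | zero => exact ⟨U, le_rfl, by omega⟩
  | succ d ih =>
    obtain ⟨v, hv⟩ := (Submodule.ne_bot_iff U).1 (fun h => by
      rw [h, finrank_bot] at d; omega)
    have hlt : finrank ℝ (U ⊓ (Submodule.span ℝ {v})ᗮ : Submodule ℝ E) + 1 = finrank ℝ U := by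
      have h1 := Submodule.finrank_add_inf_finrank_orthogonal
        (show Submodule.span ℝ {v} ≤ U from (Submodule.span_singleton_le_iff_mem v U).2 hv.1)
      rw [finrank_span_singleton hv.2, inf_comm] at h1
      omega
    obtain ⟨V, hV, hVd⟩ := ih (U := U ⊓ (Submodule.span ℝ {v})ᗮ) (by omega) (by omega)
    exact ⟨V, hV.trans inf_le_left, hVd⟩

/-- The times of the two buffers of a step. -/
def InBuf (t : ℕ → ℝ) (L : ℝ) (k : ℕ) (τ : ℝ) : Prop :=
  τ ∈ Icc (t k) (t k + L) ∨ τ ∈ Icc (t (k + 1) - L) (t (k + 1))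

/-- A dual system along checkpoints. -/
structure Timed (S : DualSys E a b ε) (lev : ℕ → ℝ) (proj : ∀ _k l : ℕ, E →L[ℝ] Mix.Co l)
    (jf : ℕ → ℕ) (t : ℕ → ℝ) (lo M K : ℕ) (c T L B d : ℝ) : Prop where
  hM : finrank ℝ E = M
  hlo : lo ≤ M
  hc : 0 < c
  hT : 0 ≤ T
  htop : S.top ≤ B
  hcB : c ≤ B
  hL : 3 * T ≤ L
  hεd : ε ≤ d
  hT0 : (40 * B ^ 2 / c ^ 2) ^ 2 * Real.exp (-((2 * d - 2 * ε) * (L - 3 * T))) < 1
  hlev : ∀ l, lo ≤ l → l ≤ M → |lev l| ≤ B
  hsep : ∀ l, lo ≤ l → l < M → lev l + d ≤ lev (l + 1)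
  inside : ∀ k ≤ K, t k ∈ Icc a b
  long : ∀ k < K, t k + L ≤ t (k + 1)
  top_low : ∀ k < K, ∀ τ, InBuf t L k τ → ∀ x : E, S.cone (lev M) τ x ≤ -c * S.nrm τ x
  top_check : ∀ k ≤ K, ∀ x : E, x ≠ 0 → S.cone (lev M) (t k) x < 0
  buf_left : ∀ k < K, ∀ l, lo ≤ l → l < M → S.Open (fun _ => lev l) c T l (t k) (t k + L)
  buf_right : ∀ k < K, ∀ l, lo ≤ l → l < M →
    S.Open (fun _ => lev l) c T l (t (k + 1) - L) (t (k + 1))
  keep : ∀ k < K, ∀ l, lo ≤ l → l < M → l ≠ jf k → ∃ μ : ℝ → ℝ,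
    S.Open μ c T l (t k) (t (k + 1)) ∧ ∀ τ, InBuf t L k τ → μ τ = lev l
  jf_mem : ∀ k < K, lo < jf k ∧ jf k < M ∨ M < jf k
  proj_pos : ∀ k ≤ K, ∀ l, lo ≤ l → l ≤ M → ∀ x, proj k l x = 0 → x ≠ 0 →
    0 < S.cone (lev l) (t k) x
  proj_nest : ∀ l, lo ≤ l → l < M → ∀ x, proj K (l + 1) x = 0 → proj K l x = 0

/-- The chain data of a timed system with initial planes `F`. -/
def chainData (S : DualSys E a b ε) (lev : ℕ → ℝ) (proj : ∀ _k l : ℕ, E →L[ℝ] Mix.Co l)
    (jf : ℕ → ℕ) (t : ℕ → ℝ) (K : ℕ) (F : ℕ → Submodule ℝ E) : Mix.CData E where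
  Q k l := S.En (t k) - lev l • S.N (t k)
  proj := proj
  C0 l := ContinuousLinearMap.id ℝ E - (F l).starProjection
  jf := jf
  K := K

theorem chainData_qf (S : DualSys E a b ε) (lev : ℕ → ℝ) (proj : ∀ _k l : ℕ, E →L[ℝ] Mix.Co l)
    (jf : ℕ → ℕ) (t : ℕ → ℝ) (K : ℕ) (F : ℕ → Submodule ℝ E) (k l : ℕ) (x : E) :
    Mix.qf ((chainData S lev proj jf t K F).Q k l) x = S.cone (lev l) (t k) x := by
  simp [Mix.qf, chainData, DualSys.cone, inner_sub_right, real_inner_smul_right]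

namespace Timed

variable {S : DualSys E a b ε} {lev : ℕ → ℝ} {proj : ∀ _k l : ℕ, E →L[ℝ] Mix.Co l}
  {jf : ℕ → ℕ} {t : ℕ → ℝ} {lo M K : ℕ} {c T L B d : ℝ} (h : Timed S lev proj jf t lo M K c T L B d)
include h

theorem lev_mono {l l' : ℕ} (h1 : lo ≤ l) (h2 : l ≤ l') (h3 : l' ≤ M) : lev l ≤ lev l' := by
  induction l', h2 using Nat.le_induction with
  | base => rfl
  | succ n hn ih =>
    have := h.hsep n (h1.trans hn) (by omega)
    linarith [ih (by omega), S.hε, h.hεd]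

theorem t_le {k : ℕ} (hk : k < K) : t k + T ≤ t (k + 1) ∧ 0 ≤ L := by
  constructor <;> linarith [h.long k hk, h.hL, h.hT]

theorem buf_mem {k : ℕ} (hk : k < K) {τ : ℝ} (hτ : InBuf t L k τ) : τ ∈ Icc (t k) (t (k + 1)) := by
  rcases hτ with hτ | hτ <;> constructor <;>
    linarith [hτ.1, hτ.2, h.long k hk, (h.t_le hk).2]

theorem buf_Icc {k : ℕ} (hk : k < K) {τ : ℝ} (hτ : InBuf t L k τ) : τ ∈ Icc a b :=
  ⟨(h.inside k hk.le).1.trans (h.buf_mem hk hτ).1, (h.buf_mem hk hτ).2.trans (h.inside (k + 1) hk).2⟩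

/-- A low vector stays low through a step. -/
theorem low_persist {k l : ℕ} (hk : k < K) (h1 : lo ≤ l) (h2 : l ≤ M) (hne : l ≠ jf k) {x : E}
    (hx : S.cone (lev l) (t k) x ≤ 0) {τ : ℝ} (hτ : InBuf t L k τ) (hlate : t k + T ≤ τ) :
    S.cone (lev l) τ x ≤ -c * S.nrm τ x := by
  rcases h2.eq_or_lt with rfl | h2
  · exact h.top_low k hk τ hτ x
  · obtain ⟨μ, hμ, he⟩ := h.keep k hk l h1 h2 hne
    have hs : t k ≤ t (k + 1) := by linarith [(h.t_le hk).1, h.hT]
    have h0 : μ (t k) = lev l := he _ (Or.inl ⟨le_rfl, by linarith [(h.t_le hk).2]⟩)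
    have h3 := hμ.low_forward x (t k) ⟨le_rfl, hs⟩ τ (h.buf_mem hk hτ) (by rw [h0]; exact hx)
    rw [he τ hτ] at h3
    exact h3.2 hlate

/-- A high vector stays high backwards through a step. -/
theorem high_persist {k l : ℕ} (hk : k < K) (h1 : lo ≤ l) (h2 : l < M) (hne : l ≠ jf k) {x : E}
    (hx : 0 ≤ S.cone (lev l) (t (k + 1)) x) {τ : ℝ} (hτ : InBuf t L k τ)
    (hearly : τ + T ≤ t (k + 1)) : c * S.nrm τ x ≤ S.cone (lev l) τ x := by
  obtain ⟨μ, hμ, he⟩ := h.keep k hk l h1 h2 hne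
  have h0 : μ (t (k + 1)) = lev l := he _ (Or.inr ⟨by linarith [(h.t_le hk).2], le_rfl⟩)
  have h3 := hμ.high_backward x τ (h.buf_mem hk hτ) (t (k + 1))
    ⟨(h.buf_mem hk hτ).2, le_rfl⟩ (by rw [h0]; exact hx)
  rw [he τ hτ] at h3
  exact h3.2 hearly

theorem gain (l : ℕ) (h1 : lo ≤ l) (h2 : l < M) (Δ : ℝ) (hΔ : L - 3 * T ≤ Δ) :
    (40 * B ^ 2 / c ^ 2) ^ 2 * Real.exp ((2 * lev l + ε) * Δ) <
      Real.exp ((2 * lev (l + 1) - ε) * Δ) := by
  have hs := h.hsep l h1 h2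
  have hΔ0 : 0 ≤ Δ := by linarith [h.hL]
  have h3 : (2 * lev l + ε) * Δ + (2 * d - 2 * ε) * (L - 3 * T) ≤
      (2 * lev (l + 1) - ε) * Δ := by
    have h4 := mul_le_mul_of_nonneg_left hΔ (by linarith [h.hεd] : 0 ≤ 2 * d - 2 * ε)
    nlinarith
  refine lt_of_lt_of_le ?_ (Real.exp_le_exp.2 h3)
  rw [Real.exp_add, mul_comm (Real.exp _) (Real.exp _)]
  refine mul_lt_mul_of_pos_right ?_ (Real.exp_pos _)
  have h5 := mul_lt_mul_of_pos_right h.hT0 (Real.exp_pos ((2 * d - 2 * ε) * (L - 3 * T)))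
  rwa [mul_assoc, ← Real.exp_add, neg_add_cancel, Real.exp_zero, mul_one, one_mul] at h5

theorem nest_low {k : ℕ} (hk : k < K) (hj : jf k < M) (U : Submodule ℝ E)
    (hU : finrank ℝ U = jf k + 1) (hlow : ∀ x ∈ U, x ≠ 0 → S.cone (lev (jf k + 1)) (t k) x < 0) :
    ∃ V ≤ U, finrank ℝ V = jf k ∧ ∀ x ∈ V, x ≠ 0 → S.cone (lev (jf k)) (t (k + 1)) x < 0 := by
  obtain ⟨hlo, -⟩ := (h.jf_mem k hk).resolve_right (by omega)
  set j := jf k with hjdef
  set v := t (k + 1) with hv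
  set τ0 := v - L + T with hτ0
  set t' := v - T with ht'
  have hgap : τ0 + T ≤ t' := by linarith [h.hL, h.hT]
  have hb0 : InBuf t L k τ0 := Or.inr ⟨by linarith [h.hT], by linarith [h.hL, h.hT]⟩
  have hb1 : InBuf t L k t' := Or.inr ⟨by linarith [h.hL, h.hT], by linarith [h.hT]⟩
  have hI : ∀ τ ∈ Icc τ0 t', InBuf t L k τ := fun τ hτ =>
    Or.inr ⟨by linarith [hτ.1, h.hT], by linarith [hτ.2, h.hT]⟩
  have hlate : t k + T ≤ τ0 := by linarith [h.long k hk]
  have hOp := h.buf_right k hk j hlo.le hj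
  set Qj := S.En t' - lev j • S.N t'
  have hQ : ∀ x y : E, ⟪Qj x, y⟫ = ⟪x, Qj y⟫ := fun x y => by
    simp [Qj, inner_sub_left, inner_sub_right, real_inner_smul_left, real_inner_smul_right,
      S.symN t' (h.buf_Icc hk hb1), S.symEn t' (h.buf_Icc hk hb1)]
  have hqf : ∀ x, Mix.qf Qj x = S.cone (lev j) t' x := fun x => by
    simp [Qj, Mix.qf, DualSys.cone, inner_sub_right, real_inner_smul_right]
  obtain ⟨A, P0, hA, hP0, hAP, hAneg, hP0pos⟩ := exists_index_split U hQ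
  have hUlow : ∀ x ∈ U, ∀ τ ∈ Icc τ0 t',
      S.cone (lev (j + 1)) τ x ≤ -c * S.nrm τ x := fun x hx τ hτ => by
    refine h.low_persist hk (by omega) hj (by omega) ?_ (hI τ hτ) (hlate.trans hτ.1)
    rcases eq_or_ne x 0 with rfl | hx0
    · simp [DualSys.cone]
    · exact (hlow x hx hx0).le
  have hAd : j ≤ finrank ℝ A := by
    by_contra hcon
    obtain ⟨P, hP, hPd⟩ := exists_sub_finrank (U := P0) (n := 2) (by omega)
    obtain ⟨W, hWd, hW⟩ := hOp.exists_low τ0 ⟨by linarith, by linarith [h.hL, h.hT]⟩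
    obtain ⟨H, hHd, hH⟩ : ∃ H : Submodule ℝ E, finrank ℝ H + (j + 1) = M ∧
        S.HighAt (lev (j + 1)) c t' H := by
      rcases (show j + 1 ≤ M from hj).eq_or_lt with he | hlt
      · exact ⟨⊥, by rw [finrank_bot]; omega, fun x hx => by
          rw [(Submodule.mem_bot ℝ).1 hx]; simp [DualSys.cone, DualSys.nrm_zero]⟩
      · obtain ⟨H, hH1, hH2⟩ := (h.buf_right k hk (j + 1) (by omega) hlt).exists_high t'
          ⟨by linarith [h.hL, h.hT], le_rfl⟩
        exact ⟨H, by rw [h.hM] at hH1; exact hH1, hH2⟩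
    have hbot : P ⊓ H = ⊥ := (Submodule.eq_bot_iff _).2 fun x hx => by
      by_contra hne
      have h1 := hUlow x (hP0 (hP hx.1)) t' ⟨by linarith [h.hT], le_rfl⟩
      have h2 := hH x hx.2
      have h3 := S.posN t' (h.buf_Icc hk hb1) x hne
      simp only [DualSys.nrm] at h1 h2
      nlinarith [h.hc]
    have e1 := Submodule.finrank_sup_add_finrank_inf_eq P H
    rw [hbot, finrank_bot, hPd] at e1
    have e2 := Submodule.finrank_sup_add_finrank_inf_eq (P ⊔ H) W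
    have e3 := Submodule.finrank_le ((P ⊔ H) ⊔ W)
    rw [h.hM] at e3
    obtain ⟨x, hx, hx0⟩ := (Submodule.ne_bot_iff ((P ⊔ H) ⊓ W)).1 fun he => by
      rw [he, finrank_bot] at e2; omega
    obtain ⟨p, hp, g, hg, rfl⟩ := Submodule.mem_sup.1 hx.1
    have hj1 : lev j ≤ lev (j + 1) := h.lev_mono hlo.le (Nat.le_succ j) hj
    have m0 : τ0 ∈ Icc a b := h.buf_Icc hk hb0
    have m1 : t' ∈ Icc a b := h.buf_Icc hk hb1
    -- `g` is high at the upper level on the whole interval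
    have hgh : ∀ τ ∈ Icc τ0 t', 0 ≤ S.cone (lev (j + 1)) τ g ∧
        (τ + T ≤ t' → c * S.nrm τ g ≤ S.cone (lev (j + 1)) τ g) := fun τ hτ => by
      rcases (show j + 1 ≤ M from hj).eq_or_lt with he | hlt
      · have : H = ⊥ := Submodule.finrank_eq_zero.1 (by omega)
        rw [this] at hg
        rw [(Submodule.mem_bot ℝ).1 hg]
        simp [DualSys.cone, DualSys.nrm_zero]
      · refine (h.buf_right k hk (j + 1) (by omega) hlt).high_backward g τ
          ⟨by linarith [hτ.1, h.hT], by linarith [hτ.2, h.hT]⟩ t' ⟨hτ.2, by linarith [h.hT]⟩ ?_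
        have := hH g hg
        have := mul_nonneg h.hc.le (DualSys.nrm_nonneg (S := S) m1 g)
        linarith
    have hxl : ∀ τ ∈ Icc τ0 t', S.cone (lev j) τ (p + g) ≤ 0 := fun τ hτ =>
      (hOp.low_forward (p + g) τ0 ⟨by linarith [h.hT], by linarith [h.hL, h.hT]⟩ τ
        ⟨hτ.1, by linarith [hτ.2, h.hT]⟩ (by
          have := hW (p + g) hx.2
          have := mul_nonneg h.hc.le (DualSys.nrm_nonneg (S := S) m0 (p + g))
          linarith)).1
    have hxt' : S.cone (lev j) t' (p + g) ≤ -c * S.nrm t' (p + g) :=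
      (hOp.low_forward (p + g) τ0 ⟨by linarith [h.hT], by linarith [h.hL, h.hT]⟩ t'
        ⟨by linarith [h.hT], by linarith [h.hT]⟩ (by
          have := hW (p + g) hx.2
          have := mul_nonneg h.hc.le (DualSys.nrm_nonneg (S := S) m0 (p + g))
          linarith)).2 hgap
    have f1 : S.nrm t' (p + g) ≤ 40 * B ^ 2 / c ^ 2 * S.nrm t' g := by
      have := DualSys.low_le m1 h.hc h.htop (h.hlev j hlo.le hj.le) h.hcB hxt'
        (h := -p) (by rw [DualSys.cone_neg, ← hqf]; exact hP0pos p (hP hp))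
      rwa [show p + g + -p = g by abel] at this
    have f2 : S.nrm τ0 g ≤ 40 * B ^ 2 / c ^ 2 * S.nrm τ0 (p + g) :=
      DualSys.high_le m0 h.hc h.htop (h.hlev (j + 1) (by omega) hj) h.hcB
        (le_trans (hUlow p (hP0 (hP hp)) τ0 ⟨le_rfl, by linarith [h.hT]⟩)
          (by have := mul_nonneg h.hc.le (DualSys.nrm_nonneg (S := S) m0 p); linarith))
        ((hgh τ0 ⟨le_rfl, by linarith [h.hT]⟩).2 hgap)
    have f3 := DualSys.rate_high (S := S) m0.1 m1.2 (by linarith [h.hT]) (x := g)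
      fun τ hτ => (hgh τ hτ).1
    have f4 := DualSys.rate_low (S := S) m0.1 m1.2 (by linarith [h.hT]) (x := p + g) hxl
    have f5 := h.gain j hlo.le hj (t' - τ0) (by linarith [h.hT])
    have hpos := S.posN t' m1 (p + g) hx0
    set K1 := 40 * B ^ 2 / c ^ 2
    have hK : 0 ≤ K1 := by positivity
    have h5 := mul_le_mul_of_nonneg_left f1 (Real.exp_pos ((2 * lev (j + 1) - ε) * (t' - τ0))).le
    have h6 := mul_le_mul_of_nonneg_left f3 hK
    have h7 := mul_le_mul_of_nonneg_left f2 hK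
    have h8 := mul_le_mul_of_nonneg_left f4 (mul_nonneg hK hK)
    have h9 := mul_lt_mul_of_pos_right f5 (show 0 < S.nrm t' (p + g) from hpos)
    nlinarith [h5, h6, h7, h8, h9]
  obtain ⟨V, hV, hVd⟩ := exists_sub_finrank hAd
  refine ⟨V, hV.trans hA, hVd, fun x hx hx0 => ?_⟩
  have h1 := hAneg x (hV hx) hx0
  rw [hqf] at h1
  have h2 := (hOp.low_forward x t' ⟨by linarith [h.hL, h.hT], by linarith [h.hT]⟩ v
    ⟨by linarith [h.hT], le_rfl⟩ h1.le).2 (by linarith)
  have h3 := S.posN v (h.inside (k + 1) hk) x hx0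
  exact lt_of_le_of_lt h2 (mul_neg_of_neg_of_pos (neg_neg_of_pos h.hc) h3)

theorem nest_high {k : ℕ} (hk : k < K) (hj : jf k < M) (U : Submodule ℝ E)
    (hU : finrank ℝ U + (jf k - 1) = M)
    (hhigh : ∀ x ∈ U, x ≠ 0 → 0 < S.cone (lev (jf k - 1)) (t (k + 1)) x) :
    ∃ V ≤ U, finrank ℝ V + jf k = M ∧ ∀ x ∈ V, x ≠ 0 → 0 < S.cone (lev (jf k)) (t k) x := by
  obtain ⟨hlo, -⟩ := (h.jf_mem k hk).resolve_right (by omega)
  set j := jf k with hjdef
  set u := t k with hu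
  set t'' := u + T with ht''
  set τ1 := u + L - T with hτ1
  have hgap : t'' + T ≤ τ1 := by linarith [h.hL, h.hT]
  have hb0 : InBuf t L k t'' := Or.inl ⟨by linarith [h.hT], by linarith [h.hL, h.hT]⟩
  have hb1 : InBuf t L k τ1 := Or.inl ⟨by linarith [h.hL, h.hT], by linarith [h.hT]⟩
  have hI : ∀ τ ∈ Icc t'' τ1, InBuf t L k τ := fun τ hτ =>
    Or.inl ⟨by linarith [hτ.1, h.hT], by linarith [hτ.2, h.hT]⟩
  have hearly : τ1 + T ≤ t (k + 1) := by linarith [h.long k hk]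
  have hOp := h.buf_left k hk j hlo.le hj
  have m0 : t'' ∈ Icc a b := h.buf_Icc hk hb0
  have m1 : τ1 ∈ Icc a b := h.buf_Icc hk hb1
  set Qj := lev j • S.N t'' - S.En t''
  have hQ : ∀ x y : E, ⟪Qj x, y⟫ = ⟪x, Qj y⟫ := fun x y => by
    simp [Qj, inner_sub_left, inner_sub_right, real_inner_smul_left, real_inner_smul_right,
      S.symN t'' m0, S.symEn t'' m0]
  have hqf : ∀ x, Mix.qf Qj x = -S.cone (lev j) t'' x := fun x => by
    simp [Qj, Mix.qf, DualSys.cone, inner_sub_right, real_inner_smul_right]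
  obtain ⟨A, P0, hA, hP0, hAP, hAneg, hP0pos⟩ := exists_index_split U hQ
  have hUhigh : ∀ x ∈ U, ∀ τ ∈ Icc t'' τ1,
      c * S.nrm τ x ≤ S.cone (lev (j - 1)) τ x := fun x hx τ hτ => by
    refine h.high_persist hk (by omega) (by omega) (by omega) ?_ (hI τ hτ) (by linarith [hτ.2])
    rcases eq_or_ne x 0 with rfl | hx0
    · simp [DualSys.cone]
    · exact (hhigh x hx hx0).le
  have hAd : M - j ≤ finrank ℝ A := by
    by_contra hcon
    obtain ⟨P, hP, hPd⟩ := exists_sub_finrank (U := P0) (n := 2) (by omega)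
    obtain ⟨H, hHd, hH⟩ := hOp.exists_high τ1 ⟨by linarith [h.hL, h.hT], le_rfl⟩
    have hOp' := h.buf_left k hk (j - 1) (by omega) (by omega)
    obtain ⟨W, hWd, hW⟩ := hOp'.exists_low t'' ⟨le_rfl, by linarith [h.hL, h.hT]⟩
    have hbot : P ⊓ W = ⊥ := (Submodule.eq_bot_iff _).2 fun x hx => by
      by_contra hne
      have h1 := hUhigh x (hP0 (hP hx.1)) t'' ⟨le_rfl, by linarith [h.hT]⟩
      have h2 := hW x hx.2
      have h3 := S.posN t'' m0 x hne
      simp only [DualSys.nrm] at h1 h2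
      nlinarith [h.hc]
    have e1 := Submodule.finrank_sup_add_finrank_inf_eq P W
    rw [hbot, finrank_bot, hPd, hWd] at e1
    have e2 := Submodule.finrank_sup_add_finrank_inf_eq (P ⊔ W) H
    have e3 := Submodule.finrank_le ((P ⊔ W) ⊔ H)
    rw [h.hM] at e3 hHd
    obtain ⟨x, hx, hx0⟩ := (Submodule.ne_bot_iff ((P ⊔ W) ⊓ H)).1 fun he => by
      rw [he, finrank_bot] at e2; omega
    obtain ⟨p, hp, g, hg, rfl⟩ := Submodule.mem_sup.1 hx.1
    have hxh : ∀ τ ∈ Icc t'' τ1, 0 ≤ S.cone (lev j) τ (p + g) ∧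
        (τ + T ≤ τ1 → c * S.nrm τ (p + g) ≤ S.cone (lev j) τ (p + g)) := fun τ hτ =>
      hOp.high_backward (p + g) τ ⟨by linarith [hτ.1, h.hT], by linarith [hτ.2, h.hT]⟩ τ1
        ⟨hτ.2, by linarith [h.hT]⟩ (le_trans (mul_nonneg h.hc.le
          (DualSys.nrm_nonneg (S := S) m1 _)) (hH (p + g) hx.2))
    have hgl : ∀ τ ∈ Icc t'' τ1, S.cone (lev (j - 1)) τ g ≤ 0 ∧
        (t'' + T ≤ τ → S.cone (lev (j - 1)) τ g ≤ -c * S.nrm τ g) := fun τ hτ =>
      hOp'.low_forward g t'' ⟨by linarith [h.hT], by linarith [h.hL, h.hT]⟩ τ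
        ⟨hτ.1, by linarith [hτ.2, h.hT]⟩ (by
          have := hW g hg
          have := mul_nonneg h.hc.le (DualSys.nrm_nonneg (S := S) m0 g)
          linarith)
    have f1 : S.nrm t'' (p + g) ≤ 40 * B ^ 2 / c ^ 2 * S.nrm t'' g := by
      have := DualSys.high_le m0 h.hc h.htop (h.hlev j hlo.le hj.le) h.hcB
        (p := -p) (by rw [DualSys.cone_neg]; linarith [hqf p, hP0pos p (hP hp)])
        ((hxh t'' ⟨le_rfl, by linarith [h.hT]⟩).2 hgap)
      rwa [show -p + (p + g) = g by abel] at this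
    have f2 : S.nrm τ1 g ≤ 40 * B ^ 2 / c ^ 2 * S.nrm τ1 (p + g) := by
      have := DualSys.low_le m1 h.hc h.htop (h.hlev (j - 1) (by omega) (by omega)) h.hcB
        ((hgl τ1 ⟨by linarith [h.hT], le_rfl⟩).2 hgap) (h := p)
        (le_trans (mul_nonneg h.hc.le (DualSys.nrm_nonneg (S := S) m1 p))
          (hUhigh p (hP0 (hP hp)) τ1 ⟨by linarith [h.hT], le_rfl⟩))
      rwa [add_comm g p] at this
    have f3 := DualSys.rate_high (S := S) m0.1 m1.2 (by linarith [h.hT]) (x := p + g)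
      fun τ hτ => (hxh τ hτ).1
    have f4 := DualSys.rate_low (S := S) m0.1 m1.2 (by linarith [h.hT]) (x := g)
      fun τ hτ => (hgl τ hτ).1
    have f5 := h.gain (j - 1) (by omega) (by omega) (τ1 - t'') (by linarith [h.hT])
    rw [show j - 1 + 1 = j by omega] at f5
    set K1 := 40 * B ^ 2 / c ^ 2
    have hK : 0 ≤ K1 := by positivity
    have hpos : 0 < S.nrm t'' g := by
      rcases eq_or_ne g 0 with hg0 | hg0
      · rw [hg0, DualSys.nrm_zero, mul_zero] at f1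
        exact absurd (S.posN t'' m0 (p + g) hx0) (not_lt.2 (by simpa [hg0, DualSys.nrm] using f1))
      · exact S.posN t'' m0 g hg0
    set e' := Real.exp ((2 * lev j - ε) * (τ1 - t''))
    set e := Real.exp ((2 * lev (j - 1) + ε) * (τ1 - t''))
    have he' : 0 ≤ e' := (Real.exp_pos _).le
    have he : 0 ≤ e := (Real.exp_pos _).le
    have h5 := mul_le_mul_of_nonneg_left f4 he'
    have h6 := mul_le_mul_of_nonneg_left f2 (mul_nonneg he' he)
    have h7 := mul_le_mul_of_nonneg_left f3 (mul_nonneg he hK)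
    have h8 := mul_le_mul_of_nonneg_left f1 (mul_nonneg he hK)
    have h9 := mul_lt_mul_of_pos_right f5 hpos
    nlinarith [h5, h6, h7, h8, h9]
  obtain ⟨V, hV, hVd⟩ := exists_sub_finrank hAd
  refine ⟨V, hV.trans hA, by omega, fun x hx hx0 => ?_⟩
  have h1 := hAneg x (hV hx) hx0
  rw [hqf] at h1
  have h2 := (hOp.high_backward x u ⟨le_rfl, by linarith [h.hL, h.hT]⟩ t''
    ⟨by linarith [h.hT], by linarith [h.hL, h.hT]⟩ (by linarith)).2 le_rfl
  have h3 := mul_pos h.hc (S.posN u (h.inside k hk.le) x hx0)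
  simp only [DualSys.nrm] at h2
  linarith

/-- A timed system with low initial planes is a chain. -/
theorem isChain {F : ℕ → Submodule ℝ E} (hFd : ∀ l, lo ≤ l → l ≤ M → finrank ℝ (F l) = l)
    (hFm : ∀ l, lo ≤ l → l < M → F l ≤ F (l + 1))
    (hFn : ∀ l, lo ≤ l → l ≤ M → ∀ x ∈ F l, x ≠ 0 → S.cone (lev l) (t 0) x < 0) :
    Mix.IsChain (chainData S lev proj jf t K F) lo M := by
  have hker : ∀ l x, (chainData S lev proj jf t K F).C0 l x = 0 ↔ x ∈ F l := fun l x => by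
    simp only [chainData, sub_apply, ContinuousLinearMap.id_apply, sub_eq_zero]
    exact eq_comm.trans Submodule.starProjection_eq_self_iff
  have hker' : ∀ l, LinearMap.ker
      ((chainData S lev proj jf t K F).C0 l : E →ₗ[ℝ] E) = F l := fun l => by
    ext x; exact hker l x
  refine ⟨h.hM, h.hlo, fun k hk l _ _ x y => ?_, fun k hk l h1 h2 x hx hx0 => ?_,
    fun k hk l l' h1 h2 h3 x => ?_, fun k hk l h1 h2 hne x hx0 hx => ?_,
    fun k hk l h1 h2 hne x hx0 hx => ?_, h.jf_mem, fun k hk hj U hU hU' => ?_,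
    fun k hk hj U hU hU' => ?_, fun l h1 h2 => ?_, fun l h1 h2 => ?_,
    fun l h1 h2 x hx hx0 => ?_, h.proj_nest⟩
  · simp [chainData, inner_sub_left, inner_sub_right, real_inner_smul_left, real_inner_smul_right,
      S.symN (t k) (h.inside k hk), S.symEn (t k) (h.inside k hk)]
  · rw [chainData_qf]
    exact h.proj_pos k hk l h1 h2 x hx hx0
  · rw [chainData_qf, chainData_qf]
    exact DualSys.cone_mono_level (h.inside k hk) (h.lev_mono h1 h2 h3) x
  · rw [chainData_qf] at hx ⊢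
    have hb : InBuf t L k (t (k + 1)) := Or.inr ⟨by linarith [(h.t_le hk).2], le_rfl⟩
    exact lt_of_le_of_lt (h.low_persist hk h1 h2 hne hx hb (h.t_le hk).1)
      (mul_neg_of_neg_of_pos (neg_neg_of_pos h.hc) (S.posN _ (h.inside (k + 1) hk) x hx0))
  · rw [chainData_qf] at hx ⊢
    rcases h2.eq_or_lt with rfl | h2
    · exact absurd hx (not_le.2 (h.top_check (k + 1) hk x hx0))
    · have hb : InBuf t L k (t k) := Or.inl ⟨le_rfl, by linarith [(h.t_le hk).2]⟩
      exact lt_of_lt_of_le (mul_pos h.hc (S.posN _ (h.inside k hk.le) x hx0))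
        (h.high_persist hk h1 h2 hne hx hb (h.t_le hk).1)
  · simp only [chainData_qf] at hU' ⊢
    exact h.nest_low hk hj U hU hU'
  · simp only [chainData_qf] at hU' ⊢
    exact h.nest_high hk hj U hU hU'
  · rw [hker']; exact hFd l h1 h2
  · rw [hker', hker']; exact hFm l h1 h2
  · rw [chainData_qf]
    exact hFn l h1 h2 x ((hker l x).1 hx) hx0

end Timed

end

end Vale.Agent.P225.Disproof
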